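import Mathlib

/-!
# Rooted trees of projective lines with a map to a product of projective spaces

`Tr k J io` : genus-0 nodal curves (rooted trees of `P^1 = Option k`, `none = ∞`) with, for every
factor `j : J`, a map given on each vertex by a tuple of polynomials `g j : io j → k[X]` read as
binary forms of degree `d j`.  A subtree hangs by the point `∞` of its root at a finite point `p`
of the root of the parent tree.
-/

set_option autoImplicit false

namespace Crest.Agent.X262.Bub96

open Polynomial

universe u v w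

/-- value of the binary form of degree `d` given by `f` at a point of `P^1` (`none = ∞`). -/
noncomputable def hv {R : Type*} [CommRing R] (d : ℕ) (f : R[X]) : Option R → R
  | none => f.coeff d
  | some x => f.eval x

/-- rooted trees of projective lines with maps. -/
inductive Tr (k : Type u) [Field k] (J : Type v) (io : J → Type w) : Type (max u v w)
  | leaf (d : J → ℕ) (g : (j : J) → io j → k[X]) : Tr k J io
  | glue (T : Tr k J io) (p : k) (S : Tr k J io) : Tr k J io

namespace Tr

variable {k : Type u} [Field k] {J : Type v} {io : J → Type w}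

/-- vertices (components). -/
def Vx : Tr k J io → Type
  | leaf _ _ => Unit
  | glue T _ S => T.Vx ⊕ S.Vx

/-- the root vertex. -/
def root : (T : Tr k J io) → T.Vx
  | leaf _ _ => ()
  | glue T _ _ => Sum.inl T.root

/-- degree on a vertex. -/
def vd : (T : Tr k J io) → T.Vx → J → ℕ
  | leaf d _, _ => d
  | glue T _ _, Sum.inl a => T.vd a
  | glue _ _ S, Sum.inr a => S.vd a

/-- the map on a vertex. -/
def vg : (T : Tr k J io) → T.Vx → (j : J) → io j → k[X]
  | leaf _ g, _ => g
  | glue T _ _, Sum.inl a => T.vg a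
  | glue _ _ S, Sum.inr a => S.vg a

/-- the finite points of a vertex at which a subtree hangs. -/
def hole : (T : Tr k J io) → T.Vx → Set k
  | leaf _ _, _ => ∅
  | glue T p _, Sum.inl a => {x | x ∈ T.hole a ∨ (a = T.root ∧ x = p)}
  | glue _ _ S, Sum.inr a => S.hole a

/-- total degree. -/
def deg : Tr k J io → J → ℕ
  | leaf d _ => d
  | glue T _ S => fun j => T.deg j + S.deg j

noncomputable instance instFintypeVx : (T : Tr k J io) → Fintype T.Vx
  | leaf _ _ => inferInstanceAs (Fintype Unit)
  | glue T _ S =>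
    letI := instFintypeVx T
    letI := instFintypeVx S
    inferInstanceAs (Fintype (T.Vx ⊕ S.Vx))

/-- points of the normalisation. -/
abbrev Pt (T : Tr k J io) : Type u := T.Vx × Option k

/-- homogeneous coordinates of the image of a point. -/
noncomputable def ev (T : Tr k J io) (x : T.Pt) (j : J) (i : io j) : k :=
  hv (T.vd x.1 j) (T.vg x.1 j i) x.2

/-- the data define a morphism on the nodal curve. -/
def OK : Tr k J io → Prop
  | leaf d g => (∀ j i, (g j i).natDegree ≤ d j) ∧ ∀ j x, ∃ i, hv (d j) (g j i) x ≠ 0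
  | glue T p S => T.OK ∧ S.OK ∧ p ∉ T.hole T.root ∧
      ∀ j i, S.ev (S.root, none) j i = T.ev (T.root, some p) j i

variable [Fintype J]

/-- `kk · d`. -/
def dot (kk d : J → ℕ) : ℕ := ∑ j, kk j * d j

/-- value of a tuple of binary forms of degrees `kk · d_v` at a point. -/
noncomputable def val (kk : J → ℕ) (T : Tr k J io) (s : T.Vx → k[X]) (x : T.Pt) : k :=
  hv (dot kk (T.vd x.1)) (s x.1) x.2

/-- sections of the pull-back of `O(kk)`. -/
def IsSec (kk : J → ℕ) : (T : Tr k J io) → (T.Vx → k[X]) → Prop
  | leaf d _, s => (s ()).natDegree ≤ dot kk d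
  | glue T p S, s => T.IsSec kk (fun a => s (Sum.inl a)) ∧ S.IsSec kk (fun a => s (Sum.inr a)) ∧
      val kk S (fun a => s (Sum.inr a)) (S.root, none) =
        val kk T (fun a => s (Sum.inl a)) (T.root, some p)

/-- two points of the normalisation that no section (and not the map) separates. -/
def Same (T : Tr k J io) (x y : T.Pt) : Prop :=
  (∀ j i, T.ev x j i = T.ev y j i) ∧ ∀ kk s, T.IsSec kk s → val kk T s x = val kk T s y

/-- `Y` is norming in degree `kk`. -/
def Norming (kk : J → ℕ) (T : Tr k J io) (Y : Set T.Pt) : Prop :=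
  ∀ s, T.IsSec kk s → (∀ y ∈ Y, val kk T s y = 0) → s = 0

end Tr

/-- all coefficients lie in `O`. -/
def PInt {K : Type*} [Field K] (O : ValuationSubring K) (f : K[X]) : Prop := ∀ n, f.coeff n ∈ O

/-- A reduction map `O → k` with kernel the maximal ideal, extended by junk to `K`. -/
structure Rd (K : Type*) [Field K] (k : Type*) [Field k] where
  O : ValuationSubring K
  red : O →+* k
  ker : ∀ x : O, red x = 0 ↔ O.valuation x < 1
  surj : Function.Surjective red

namespace Rd

variable {K : Type*} [Field K] {k : Type u} [Field k] (R : Rd K k)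

open Classical in
/-- the reduction as a function on `K` (`0` off `O`). -/
noncomputable def p (x : K) : k := if h : x ∈ R.O then R.red ⟨x, h⟩ else 0

theorem p_zero : R.p 0 = 0 := by
  unfold p
  rw [dif_pos R.O.zero_mem]
  exact map_zero R.red

/-- coefficientwise reduction of a polynomial. -/
noncomputable def pP (f : K[X]) : k[X] := f.sum fun n a => monomial n (R.p a)

end Rd

/-- `F` is a tuple of coprime binary forms of degree `d` in each factor. -/
def Cop {K : Type*} [Field K] {J : Type v} {io : J → Type w} (d : J → ℕ)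
    (F : (j : J) → io j → K[X]) : Prop :=
  (∀ j i, (F j i).natDegree ≤ d j) ∧ ∀ j x, ∃ i, hv (d j) (F j i) x ≠ 0

/-- The reduction of the map `F` (degree `d`) along `R`: a tree `T`, the specialisation `sp` of
points, normalising scalars `nrm`. -/
structure Red {K : Type*} [Field K] {k : Type u} [Field k] (R : Rd K k) {J : Type v} [Fintype J]
    {io : J → Type w} (d : J → ℕ) (F : (j : J) → io j → K[X]) where
  T : Tr k J io
  ok : T.OK
  deg : T.deg = d
  sp : Option K → T.Pt
  nrm : Option K → J → K
  sp_none : sp none = (T.root, none)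
  nrm_mem : ∀ y j i, nrm y j * hv (d j) (F j i) y ∈ R.O
  ev_sp : ∀ y j i, R.p (nrm y j * hv (d j) (F j i) y) = T.ev (sp y) j i
  surj : ∀ x, ∃ y, T.Same x (sp y)
  /-- every non-zero form has a multiple reducing to a non-zero section -/
  sec : ∀ (kk : J → ℕ) (σ : K[X]), σ.natDegree ≤ Tr.dot kk d → σ ≠ 0 →
    ∃ c : K, c ≠ 0 ∧ ∃ s, T.IsSec kk s ∧ s ≠ 0 ∧ ∀ y,
      c * (∏ j, nrm y j ^ kk j) * hv (Tr.dot kk d) σ y ∈ R.O ∧
      R.p (c * (∏ j, nrm y j ^ kk j) * hv (Tr.dot kk d) σ y) = Tr.val kk T s (sp y)
  /-- the disc of a vertex -/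
  chart : ∀ a : T.Vx, ∃ (x ρ : K) (c : J → K) (h : J → k[X]), ρ ≠ 0 ∧ (∀ j, h j ≠ 0) ∧
    (∀ j i, PInt R.O (C (c j) * (F j i).comp (C x + C ρ * X)) ∧
      R.pP (C (c j) * (F j i).comp (C x + C ρ * X)) = h j * T.vg a j i) ∧
    (∀ j z, (h j).IsRoot z → z ∈ T.hole a) ∧
    ∀ u ∈ R.O, R.p u ∉ T.hole a → sp (some (x + ρ * u)) = (a, some (R.p u))

/-- existence of the reduction. -/
def ExStmt : Prop :=
  ∀ (K : Type) [Field K] [IsAlgClosed K] (k : Type) [Field k] [IsAlgClosed k] (R : Rd K k)
    (J : Type) [Fintype J] (io : J → Type) [∀ j, Finite (io j)] (d : J → ℕ)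
    (F : (j : J) → io j → K[X]), Cop d F → Nonempty (Red R d F)

end Crest.Agent.X262.Bub96
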