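import Crest.Agent.X262.Bub96.NormA
import Crest.Agent.X262.Vb.Cfg

/-! # Norming points exist over a finite extension; extension of places -/

set_option autoImplicit false
set_option linter.unusedSectionVars false

noncomputable section

namespace Crest.Agent.X262.Bub96

open Polynomial Tr IsLocalRing Crest.Agent.X277 Crest.Agent.X277.BD Crest.Agent.X262.Vb

variable {J : Type} [Fintype J] [DecidableEq J] {io : J → Type} [∀ j, Fintype (io j)]
  [∀ j, DecidableEq (io j)] {d : J → ℕ} {I : Type}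
  {K L : Type} [Field K] [Algebra ℂ K] [Field L] [Algebra ℂ L]

/-- the reduction map of a valuation ring. -/
def rd (W : RZ ℂ L) : Rd L (ResidueField W.1) where
  O := W.1
  red := residue W.1
  ker x := by rw [residue_eq_zero_iff, ValuationSubring.valuation_lt_one_iff]
  surj := residue_surjective

theorem charZero_rd (W : RZ ℂ L) : CharZero (ResidueField W.1) :=
  charZero_of_injective_ringHom
    ((residue W.1).comp ((algebraMap ℂ L).codRestrict W.1 W.2)).injective

omit [Algebra ℂ K] in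
theorem cop_of_cp {f : (j : J) → io j → K[X]} (h : Cp d f) : Cop d f := by
  refine ⟨h.1, fun j x => ?_⟩
  rcases x with _ | x
  · exact h.2.1 j
  · by_contra hc
    push Not at hc
    have : Ideal.span (Set.range (f j)) ≤ RingHom.ker (evalRingHom x) :=
      Ideal.span_le.2 (by rintro _ ⟨i, rfl⟩; exact hc i)
    rw [h.2.2 j] at this
    simpa using this (Submodule.mem_top (x := 1))

theorem nz_pt (ξ : Dat io d I K) (t : Option K) : NZ (ξ.pt t) := fun j => (cop_of_cp ξ.cp).2 j t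

theorem hv_map {R S : Type*} [CommRing R] [CommRing S] (γ : R →+* S) (n : ℕ) (σ : R[X])
    (t : Option R) : hv n (σ.map γ) (t.map γ) = γ (hv n σ t) := by
  rcases t with _ | t <;> simp

theorem pt_map (ξ : Dat io d I K) (γ : K →ₐ[ℂ] L) (t : Option K) :
    (ξ.map γ).pt (t.map γ) = fun j i => γ (ξ.pt t j i) :=
  _root_.funext fun j => _root_.funext fun i => hv_map (γ : K →+* L) (d j) (ξ.f j i) t

theorem dat_map_map {M : Type} [Field M] [Algebra ℂ M] (ξ : Dat io d I K) (α : K →ₐ[ℂ] L)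
    (γ : L →ₐ[ℂ] M) : (ξ.map α).map γ = ξ.map (γ.comp α) := by
  simp only [Dat.map, Polynomial.map_map, Option.map_map]
  rfl

theorem lw_map (γ : K →ₐ[ℂ] L) (κ : J → ℕ) (y : Pnt io K) :
    lw κ (fun j i => γ (y j i)) = pb γ (lw κ y) := by
  simp only [lw, ln, map_sum, map_nsmul, pb_mxf]

theorem lf_map {R S : Type*} [CommRing R] [CommRing S] (γ : R →+* S) (F : (j : J) → io j → R[X])
    (j : J) (c : ℕ) : lf (fun j i => (F j i).map γ) j c = (lf F j c).map γ := by
  simp [lf, Polynomial.map_sum]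

/-- it suffices to test algebraically closed extensions. -/
theorem nrm_of_closed {ξ : Dat io d I K} {κ : J → ℕ}
    (h : ∀ (L : Type) [Field L] [Algebra ℂ L] [IsAlgClosed L] (α : K →ₐ[ℂ] L) (W : RZ ℂ L)
      (σ : L[X]), σ.natDegree ≤ dot κ d →
      (∀ q, W.v (hv (dot κ d) σ ((ξ.map α).x q)) ≤ (lw κ ((ξ.map α).pt ((ξ.map α).x q))).val W) →
      ∀ t, W.v (hv (dot κ d) σ t) ≤ (lw κ ((ξ.map α).pt t)).val W) : ξ.Nrm κ := by
  intro L _ _ α W σ hσ hq t
  let γ := IsScalarTower.toAlgHom ℂ L (AlgebraicClosure L)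
  obtain ⟨W', rfl⟩ := cm_surjective γ W
  have key : ∀ t, W'.v (hv (dot κ d) (σ.map (γ : L →+* _)) (t.map γ)) ≤
      (lw κ ((ξ.map (γ.comp α)).pt (t.map γ))).val W' ↔ (cm _ (alg_ov γ) W').v (hv (dot κ d) σ t) ≤
        (lw κ ((ξ.map α).pt t)).val (cm _ (alg_ov γ) W') := fun t => by
    rw [← dat_map_map, pt_map, lw_map, show t.map γ = t.map (γ : L →+* _) from rfl, hv_map]
    exact v_le_val_mp
  refine (key t).1 (h _ (γ.comp α) W' _ (natDegree_map_le.trans hσ) (fun q => ?_) _)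
  have := (key _).2 (hq q)
  rwa [show ((ξ.map α).x q).map γ = (ξ.map (γ.comp α)).x q from Option.map_map _ _ _] at this

section red

variable {W : RZ ℂ L} {ξ : Dat io d I L} (A : Red (rd W) d ξ.f)

theorem v_nrm (t : Option L) (j : J) : W.v (A.nrm t j) * (ln (ξ.pt t) j).val W = 1 := by
  obtain ⟨i, hi⟩ := A.ok.ev_ne (A.sp t) j
  have h1 : W.v (A.nrm t j) * W.v (ξ.pt t j i) = 1 := by
    rw [← map_mul]
    exact (rd W).v_eq_one (A.nrm_mem t j i) (A.ev_sp t j i ▸ hi)
  have h2 : W.v (A.nrm t j) ≠ 0 := left_ne_zero_of_mul_eq_one h1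
  rw [ln, val_mxf (i := i) (RZ.ne_zero_iff.1 (right_ne_zero_of_mul_eq_one h1)) fun i' => ?_, h1]
  refine le_of_mul_le_mul_left ?_ (zero_lt_iff.2 h2)
  rw [h1, ← map_mul]
  exact RZ.le_one_iff.2 (A.nrm_mem t j i')

theorem nv_mem_iff (κ : J → ℕ) (σ : L[X]) (t : Option L) :
    A.nv κ σ t ∈ (rd W).O ↔ W.v (hv (dot κ d) σ t) ≤ (lw κ (ξ.pt t)).val W := by
  have h1 : W.v (∏ j, A.nrm t j ^ κ j) * (lw κ (ξ.pt t)).val W = 1 := by
    rw [lw, val_sum, map_prod, ← Finset.prod_mul_distrib]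
    exact Finset.prod_eq_one fun j _ => by rw [val_nsmul, map_pow, ← mul_pow, v_nrm, one_pow]
  refine (RZ.le_one_iff (V := W)).symm.trans ?_
  rw [Red.nv, map_mul, ← h1]
  exact mul_le_mul_iff_right₀ (zero_lt_iff.2 (left_ne_zero_of_mul_eq_one h1))

end red

/-- **criterion**: the points contain the roots of the Vandermonde forms. -/
theorem nrmUp_of_roots [Nonempty I] {ξ : Dat io d I K} {N : ℕ}
    (h : ∀ j c, c < nb io d N → lf ξ.f j c ≠ 0 → (lf ξ.f j c).Splits ∧
      ∀ r, (lf ξ.f j c).IsRoot r → ∃ q, ξ.x q = some r) : ξ.NrmUp N := by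
  intro κ hκ
  refine nrm_of_closed fun L _ _ _ α W σ hσ hq t => ?_
  have := (rd W).isAlgClosed
  have := charZero_rd W
  obtain ⟨A, hA⟩ := exists_red' (rd W) (cop_of_cp (ξ.map α).cp)
  rw [← nv_mem_iff A]
  refine A.bound (Y := Set.range (ξ.map α).x) (norming_roots (cop_of_cp (ξ.map α).cp) A hA
    (Set.range_nonempty _) (fun j c hc h0 y hy => ?_) hκ) hσ ?_ t
  · have e : lf (ξ.map α).f j c = (lf ξ.f j c).map (α : K →+* L) := lf_map _ _ _ _
    rw [e] at h0 hy
    have h1 : lf ξ.f j c ≠ 0 := fun h1 => h0 (by rw [h1, Polynomial.map_zero])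
    obtain ⟨r, rfl⟩ := (h j c hc h1).1.mem_range_of_isRoot h1 hy
    obtain ⟨q, hq⟩ := (h j c hc h1).2 r ((isRoot_map_iff (α : K →+* L).injective).1 hy)
    exact ⟨q, by simp only [Dat.map, hq]; rfl⟩
  · rintro _ ⟨q, rfl⟩
    exact (nv_mem_iff A κ σ _).2 (hq q)

/-- **norming points exist** over a finite extension. -/
theorem exists_nrm {M : Type} (ξ : Dat io d M K) (N : ℕ) :
    ∃ (L : Type) (_ : Field L) (_ : Algebra ℂ L) (_ : Algebra K L) (_ : IsScalarTower ℂ K L)
      (_ : FiniteDimensional K L) (n : ℕ) (η : Dat io d (M ⊕ Fin n) L),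
      η.res Sum.inl = ξ.map (IsScalarTower.toAlgHom ℂ K L) ∧ η.NrmUp N := by
  classical
  let S : Finset (J × ℕ) := (Finset.univ ×ˢ Finset.range (nb io d N)).filter
    fun x => lf ξ.f x.1 x.2 ≠ 0
  let P : K[X] := ∏ x ∈ S, lf ξ.f x.1 x.2
  have hP : P ≠ 0 := Finset.prod_ne_zero_iff.2 fun x hx => (Finset.mem_filter.1 hx).2
  obtain ⟨L, _, _, _, _, _, hL⟩ : ∃ (L : Type) (_ : Field L) (_ : Algebra ℂ L) (_ : Algebra K L)
      (_ : IsScalarTower ℂ K L) (_ : FiniteDimensional K L), (P.map (algebraMap K L)).Splits :=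
    ⟨P.SplittingField, inferInstance, inferInstance, inferInstance, inferInstance, inferInstance,
      SplittingField.splits P⟩
  let θ := IsScalarTower.toAlgHom ℂ K L
  have hP' : P.map (algebraMap K L) ≠ 0 := Polynomial.map_ne_zero hP
  let s := (P.map (algebraMap K L)).roots.toFinset
  refine ⟨L, inferInstance, inferInstance, inferInstance, inferInstance,
    inferInstance, s.card + 1, ⟨(ξ.map θ).f, Sum.elim (ξ.map θ).x
      (Fin.cons none fun i => some (s.equivFin.symm i)), (ξ.map θ).cp⟩, rfl,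
    nrmUp_of_roots fun j c hc h0 => ?_⟩
  have e : lf (ξ.map θ).f j c = (lf ξ.f j c).map (algebraMap K L) := lf_map _ _ _ _
  have hd : lf (ξ.map θ).f j c ∣ P.map (algebraMap K L) := by
    rw [e]
    refine Polynomial.map_dvd _ (Finset.dvd_prod_of_mem (fun x : J × ℕ => lf ξ.f x.1 x.2) (a := (j, c))
      (Finset.mem_filter.2 ⟨by simpa using hc, fun h1 => h0 (e.trans ?_)⟩))
    rw [show lf ξ.f j c = 0 from h1, Polynomial.map_zero]
  refine ⟨hL.of_dvd hP' hd, fun r hr => ?_⟩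
  have hs : r ∈ s := Multiset.mem_toFinset.2 ((mem_roots hP').2 (hr.dvd hd))
  exact ⟨Sum.inr (s.equivFin ⟨r, hs⟩).succ, by simp⟩

/-- a place extends to an algebraically closed field with a non-trivial valuation ring whose
residue field contains the given value field. -/
theorem exists_ext {E E' : Type} [Field E] [Algebra ℂ E] [Field E'] [Algebra ℂ E']
    (p : Pl ℂ E ℂ E') : ∃ (L : Type) (_ : Field L) (_ : Algebra ℂ L) (_ : IsAlgClosed L)
      (α : E →ₐ[ℂ] L) (W : RZ ℂ L) (β : E' →+* ResidueField W.1),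
      cm (α : E →+* L) (alg_ov α) W = p.V ∧ (∀ x ∈ p.V.1, (rd W).p (α x) = β (p.r x)) ∧
      ∃ π : L, π ≠ 0 ∧ W.v π < 1 := by
  let L := AlgebraicClosure (FractionRing (MvPolynomial E' E))
  let α : E →ₐ[ℂ] L := IsScalarTower.toAlgHom ℂ E L
  let f : MvPolynomial E' p.V.1 →+* L :=
    (algebraMap (MvPolynomial E' E) L).comp (MvPolynomial.map p.V.1.subtype)
  have hf : Function.Injective f :=
    ((algebraMap (FractionRing (MvPolynomial E' E)) L).injective.comp
      (IsFractionRing.injective (MvPolynomial E' E) _)).comp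
      (MvPolynomial.map_injective _ Subtype.val_injective)
  have hfC : ∀ x : p.V.1, f (MvPolynomial.C x) = α x := fun x => by
    simp only [f, RingHom.comp_apply, MvPolynomial.map_C]
    exact (IsScalarTower.algebraMap_apply E (MvPolynomial E' E) L x).symm
  let ψ : MvPolynomial E' p.V.1 →+* E' := MvPolynomial.eval₂Hom p.φ id
  have hψ : Function.Surjective ψ := fun e => ⟨MvPolynomial.X e, by simp [ψ]⟩
  have hψC : ∀ x : p.V.1, ψ (MvPolynomial.C x) = p.φ x := fun x => by simp [ψ]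
  have := RingHom.ker_isPrime ψ
  obtain ⟨W, h1, h2⟩ := Cns.exists_val f (RingHom.ker ψ) fun a ha => by
    rw [(map_eq_zero_iff f hf).1 ha]; exact zero_mem _
  let W' : RZ ℂ L := ⟨W, fun c => by
    rw [← α.commutes c]; exact hfC ⟨_, p.V.2 c⟩ ▸ h1 _⟩
  have h3 : ∀ a, ψ a = 0 → W'.v (f a) < 1 := fun a ha =>
    lt_of_le_of_ne (RZ.le_one_iff.2 (h1 a)) fun h => (h2 a).1 (Cns.un_iff_val.2 h) ha
  let g : MvPolynomial E' p.V.1 →+* ResidueField W := (residue W).comp (f.codRestrict W h1)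
  have hg : RingHom.ker ψ ≤ RingHom.ker g := fun a ha => ((rd W').ker ⟨f a, h1 a⟩).2 (h3 a ha)
  refine ⟨L, inferInstance, inferInstance, inferInstance, α, W',
    ψ.liftOfSurjective hψ ⟨g, hg⟩, Subtype.ext (ValuationSubring.ext _ _ fun x => ⟨fun hx => ?_,
      fun hx => ?_⟩), fun x hx => ?_, f (MvPolynomial.X 0),
    (map_ne_zero_iff f hf).2 (MvPolynomial.X_ne_zero _), h3 _ (by simp [ψ])⟩
  · by_contra hxV
    have h4 : p.V.v x⁻¹ < 1 := by
      rw [map_inv₀]
      exact inv_lt_one_of_one_lt₀ (not_le.1 fun h => hxV (RZ.le_one_iff.1 h))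
    have h5 := h3 (MvPolynomial.C ⟨x⁻¹, RZ.le_one_iff.1 h4.le⟩) (by rw [hψC]; exact (p.ker _).2 h4)
    rw [hfC, map_inv₀, map_inv₀] at h5
    have h6 : W'.v (α x) ≤ 1 := RZ.le_one_iff.2 hx
    have h0 : x ≠ 0 := fun h => hxV (h ▸ zero_mem _)
    exact absurd ((inv_lt_one₀ (RZ.pos ((map_ne_zero α).2 h0))).1 h5) (not_lt.2 h6)
  · exact show α x ∈ W from hfC ⟨x, hx⟩ ▸ h1 _
  · rw [p.r_eq hx, ← hψC, RingHom.liftOfSurjective_comp_apply, ← hfC ⟨x, hx⟩,
      (rd W').p_of_mem (h1 _)]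
    rfl

/-- evaluation at norming points is injective. -/
theorem nrm_inj {ξ : Dat io d I K} {κ : J → ℕ} (h : ξ.Nrm κ) {σ : K[X]}
    (hσ : σ.natDegree ≤ dot κ d) (h0 : ∀ q, hv (dot κ d) σ (ξ.x q) = 0) : σ = 0 := by
  obtain ⟨L, _, _, _, α, W, -, -, -, π, hπ, hπ1⟩ :=
    exists_ext (Pl.ofHom (RingHom.id K) (alg_ov (AlgHom.id ℂ K)))
  refine (Polynomial.map_eq_zero (α : K →+* L)).1 (Polynomial.funext fun t => ?_)
  by_contra ht
  rw [eval_zero] at ht
  set a := lw κ ((ξ.map α).pt (some t))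
  have := h L α W (C (π⁻¹ * a.gen W / (σ.map (α : K →+* L)).eval t) * σ.map (α : K →+* L))
    ((natDegree_C_mul_le _ _).trans (natDegree_map_le.trans hσ)) (fun q => by
      rw [hv_C_mul, show (ξ.map α).x q = (ξ.x q).map (α : K →+* L) from rfl, hv_map, h0, map_zero,
        mul_zero, map_zero]
      exact zero_le) (some t)
  rw [hv_C_mul, hv_some, div_mul_cancel₀ _ ht, map_mul, v_gen, map_inv₀,
    mul_le_iff_le_one_left (a.val_pos W), inv_le_one₀ (RZ.pos hπ)] at this
  exact absurd hπ1 (not_lt.2 this)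

theorem finrank_map_of_inj {k V V' : Type*} [Field k] [AddCommGroup V] [Module k V]
    [AddCommGroup V'] [Module k V'] (f : V →ₗ[k] V') (U : Submodule k V)
    (h : ∀ u ∈ U, f u = 0 → u = 0) : Module.finrank k (U.map f) = Module.finrank k U := by
  rw [← LinearMap.range_domRestrict]
  exact LinearMap.finrank_range_of_inj ((injective_iff_map_eq_zero _).2 fun u hu =>
    Subtype.ext (h u u.2 hu))

theorem finrank_cfg {ξ : Dat io d I K} {κ : J → ℕ} (h : ξ.Nrm κ) :
    Module.finrank K (ξ.cfg.V κ) = dot κ d + 1 := by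
  refine (finrank_map_of_inj _ _ fun σ hσ h0 =>
    nrm_inj h (natDegree_le_of_degree_le (mem_degreeLE.1 hσ)) (congrFun h0)).trans ?_
  rw [← degreeLT_succ_eq_degreeLE, (degreeLTEquiv K _).finrank_eq, Module.finrank_fin_fun]

end Crest.Agent.X262.Bub96
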