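import Crest.Agent.X262.Bub96.NormB
import Crest.Agent.X262.Tree87.TL
import Crest.Agent.X262.Tree87.Lin
import Crest.Agent.X262.Tree87.T1

/-! # The reduction of a normed datum along any place is tree-like -/

set_option autoImplicit false
set_option linter.unusedSectionVars false

noncomputable section

namespace Crest.Agent.X262.Bub96

open Polynomial Tr IsLocalRing Crest.Agent.X277 Crest.Agent.X277.BD Crest.Agent.X262.Vb
open Crest.Agent.X262.Tree87

variable {J : Type} [Fintype J] [DecidableEq J] {io : J → Type} [∀ j, Fintype (io j)]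
  [∀ j, DecidableEq (io j)] {d : J → ℕ} {I : Type}
  {K E : Type} [Field K] [Algebra ℂ K] [Field E] [Algebra ℂ E]

theorem mapS_redS_le {k P : Type} [Field k] [Algebra ℂ k] {p : Pl ℂ K ℂ E} (β : E →ₐ[ℂ] k)
    {U : Submodule K (P → K)} {Y : Submodule k (P → k)}
    (h : ∀ u ∈ U, (∀ x, u x ∈ p.V.1) → (fun x => β (p.r (u x))) ∈ Y) : mapS β (redS p U) ≤ Y := by
  let Y' : Submodule E (P → E) :=
    { carrier := {w | (fun x => β (w x)) ∈ Y}
      add_mem' := fun ha hb => by
        simp only [Set.mem_ofPred_eq, Pi.add_apply, map_add]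
        exact Y.add_mem ha hb
      zero_mem' := by
        simp only [Set.mem_ofPred_eq, Pi.zero_apply, map_zero]
        exact Y.zero_mem
      smul_mem' := fun c _ ha => by
        simp only [Set.mem_ofPred_eq, Pi.smul_apply, smul_eq_mul, map_mul]
        exact Y.smul_mem (β c) ha }
  rw [mapS, Submodule.span_le]
  rintro _ ⟨w, hw, rfl⟩
  exact redS_le (W := Y') h hw

theorem inj_of_finrank {k V V' : Type*} [Field k] [AddCommGroup V] [Module k V]
    [AddCommGroup V'] [Module k V'] (f : V →ₗ[k] V') (U : Submodule k V) [Module.Finite k U]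
    (h : Module.finrank k (U.map f) = Module.finrank k U) : ∀ u ∈ U, f u = 0 → u = 0 := by
  have h1 := LinearMap.finrank_range_add_finrank_ker (f.domRestrict U)
  rw [LinearMap.range_domRestrict, h, add_eq_left, Submodule.finrank_eq_zero] at h1
  intro u hu h0
  exact congrArg Subtype.val ((Submodule.eq_bot_iff _).1 h1 ⟨u, hu⟩ h0)

/-- **LAT**: the reduction of the configuration of a normed datum along a place is the
configuration of a norming family of points on a tree. -/
theorem tl_red [Fintype I] {ξ : Dat io d I K} {N : ℕ} (h : ξ.NrmUp N) (p : Pl ℂ K ℂ E) :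
    TL d N (ξ.cfg.red p) := by
  obtain ⟨L, _, _, _, α, W, β, hW, hβ, -⟩ := exists_ext p
  let _ : Algebra ℂ (ResidueField W.1) := (β.comp (algebraMap ℂ E)).toAlgebra
  let β' : E →ₐ[ℂ] ResidueField W.1 := { β with commutes' := fun _ => rfl }
  have := (rd W).isAlgClosed
  obtain ⟨A⟩ := exists_red (rd W) (cop_of_cp (ξ.map α).cp)
  set n := ξ.cfg.nrm p.V with hn
  have hn0 : ∀ q j, n q j ≠ 0 := fun q j => inv_ne_zero (gen_ne _ _)
  have hmem : ∀ x, α x ∈ W.1 ↔ x ∈ p.V.1 := fun x => by rw [← hW]; rfl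
  let u : I → J → L := fun q j => A.nrm ((ξ.map α).x q) j / α (n q j)
  have hu : ∀ q j, W.v (u q j) = 1 := fun q j => by
    have h1 := v_nrm A ((ξ.map α).x q) j
    rw [show (ξ.map α).x q = (ξ.x q).map α from rfl, pt_map, ln, ← pb_mxf, pb, val_mp_gen, hW,
      ← map_mul] at h1
    rw [← h1]
    simp only [u, hn, Cfg.nrm, map_inv₀, div_inv_eq_mul]
    rfl
  have huO : ∀ q j, u q j ∈ (rd W).O := fun q j => RZ.le_one_iff.1 (hu q j).le
  have hun : ∀ q j, u q j * α (n q j) = A.nrm ((ξ.map α).x q) j := fun q j =>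
    div_mul_cancel₀ _ ((map_ne_zero α).2 (hn0 q j))
  let c : I → J → ResidueField W.1 := fun q j => (rd W).p (u q j)
  have hc : ∀ q j, c q j ≠ 0 := fun q j => (rd W).p_ne_zero (hu q j)
  have hV : ∀ κ : J → ℕ, (∀ j, κ j ≤ N) →
      (((ξ.cfg.red p).map β').gau c).V κ ≤
        (A.T.Sec κ).map (vals A.T (fun q => A.sp ((ξ.map α).x q)) κ) := by
    intro κ hκ
    refine Submodule.map_le_iff_le_comap.2 (mapS_redS_le β' ?_)
    rintro _ ⟨_, ⟨σ, hσ, rfl⟩, rfl⟩ hi
    have hσ' : (σ.map (α : K →+* L)).natDegree ≤ dot κ d :=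
      natDegree_map_le.trans (natDegree_le_of_degree_le (mem_degreeLE.1 hσ))
    have hi' : ∀ q, (∏ j, n q j ^ κ j) * hv (dot κ d) σ (ξ.x q) ∈ p.V.1 := hi
    have hU : ∀ q, (∏ j, u q j ^ κ j) ∈ (rd W).O := fun q =>
      prod_mem fun j _ => pow_mem (huO q j) _
    have e : ∀ q, A.nv κ (σ.map (α : K →+* L)) ((ξ.map α).x q) =
        (∏ j, u q j ^ κ j) * α ((∏ j, n q j ^ κ j) * hv (dot κ d) σ (ξ.x q)) := fun q => by
      rw [Red.nv, map_mul, map_prod, ← mul_assoc, ← Finset.prod_mul_distrib]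
      congr 1
      · exact Finset.prod_congr rfl fun j _ => by rw [map_pow, ← mul_pow, hun]
      · exact hv_map (α : K →+* L) _ _ _
    obtain ⟨s, hs, hs'⟩ := A.exists_sec hσ' fun t => (nv_mem_iff A κ _ t).2
      (h κ hκ L α W _ hσ' (fun q => (nv_mem_iff A κ _ _).1
        (e q ▸ mul_mem (hU q) ((hmem _).2 (hi' q)))) t)
    refine ⟨s, hs, _root_.funext fun q => ?_⟩
    refine (hs' _).symm.trans ?_
    rw [e, (rd W).p_mul (hU q) ((hmem _).2 (hi' q)), hβ _ (hi' q),
      (rd W).p_prod _ _ fun j _ => pow_mem (huO q j) _]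
    simp only [(rd W).p_pow (huO q _)]
    rfl
  have hfr : ∀ κ : J → ℕ, (∀ j, κ j ≤ N) →
      Module.finrank (ResidueField W.1) ((((ξ.cfg.red p).map β').gau c).V κ) =
        Module.finrank (ResidueField W.1) (A.T.Sec κ) := by
    intro κ hκ
    rw [finrank_sec κ A.ok, A.deg, ← finrank_cfg (h κ hκ)]
    exact (finrank_sclS (fun q => Finset.prod_ne_zero_iff.2 fun j _ => pow_ne_zero _ (hc q j))
      _).trans ((finrank_mapS β' _).trans ((finrank_redS p _).trans (finrank_sclS
        (fun q => Finset.prod_ne_zero_iff.2 fun j _ => pow_ne_zero _ (hn0 q j)) _)))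
  have hE : ∀ κ : J → ℕ, (∀ j, κ j ≤ N) → (((ξ.cfg.red p).map β').gau c).V κ =
      (A.T.Sec κ).map (vals A.T (fun q => A.sp ((ξ.map α).x q)) κ) := fun κ hκ => by
    have := finite_sec κ A.T
    exact Submodule.eq_of_le_of_finrank_le (hV κ hκ)
      ((Submodule.finrank_map_le _ _).trans (hfr κ hκ).ge)
  refine ⟨_, inferInstance, inferInstance, this, ⟨{
    α := β'
    t := A.T
    sp := fun q => A.sp ((ξ.map α).x q)
    c := c
    ok := A.ok
    deg := A.deg
    c_ne := hc
    y_eq := fun q => _root_.funext fun j => _root_.funext fun i => ?_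
    V_eq := hE
    nrm := fun κ hκ s hs h0 => ?_ }⟩⟩
  · have h1 : n q j * ξ.pt (ξ.x q) j i ∈ p.V.1 := by
      rw [hn, Cfg.nrm, inv_mul_eq_div]
      exact (RZ.le_iff (gen_ne _ _)).1 (v_gen _ p.V ▸ mem_Sec_mxf _ i p.V)
    rw [← A.ev_sp, ← hun, mul_assoc]
    refine ((congrArg (c q j * ·) (hβ _ h1)).symm.trans
      ((rd W).p_mul (huO q j) ((hmem _).2 h1)).symm).trans ?_
    rw [map_mul]
    exact congrArg (fun z => (rd W).p (u q j * (α (n q j) * z)))
      (hv_map (α : K →+* L) _ _ _).symm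
  · have := finite_sec κ A.T
    exact inj_of_finrank _ _ (by rw [← hE κ hκ, hfr κ hκ]) s hs
      (_root_.funext fun q => h0 _ ⟨q, rfl⟩)

end Crest.Agent.X262.Bub96
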