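import Crest.Agent.X262.Bub96.Val
import Crest.Agent.X262.Bub96.Tree

/-! # The reduction tree: solutions on open and closed discs, attaching the holes -/

set_option autoImplicit false

namespace Crest.Agent.X262.Bub96

open Polynomial Tr

variable {K : Type*} [Field K] {k : Type*} [Field k] (R : Rd K k) {J : Type*} [Fintype J]
  {io : J → Type*}

/-- normalised value of a form. -/
noncomputable def lam (nrm : K → J → K) (kk : J → ℕ) (σ : K[X]) (y : K) : K :=
  (∏ j, nrm y j ^ kk j) * σ.eval y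

/-- the disc of a vertex. -/
def Chart (F : (j : J) → io j → K[X]) (T : Tr k J io) (sp : K → T.Pt) (A : Set K)
    (a : T.Vx) : Prop :=
  ∃ (x ρ : K) (c : J → K) (h : J → k[X]), ρ ≠ 0 ∧ (∀ j, h j ≠ 0) ∧
    (∀ j i, PInt R.O (C (c j) * (F j i).comp (C x + C ρ * X)) ∧
      R.pP (C (c j) * (F j i).comp (C x + C ρ * X)) = h j * T.vg a j i) ∧
    (∀ z, z ∈ T.hole a ↔ ∃ j, (h j).IsRoot z) ∧
    ∀ u ∈ R.O, R.p u ∉ T.hole a → x + ρ * u ∈ A ∧ sp (x + ρ * u) = (a, some (R.p u))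

theorem comp_aff_aff (F : K[X]) (x0 ρ0 x ρ : K) :
    (F.comp (C x0 + C ρ0 * X)).comp (C x + C ρ * X) =
      F.comp (C (x0 + ρ0 * x) + C (ρ0 * ρ) * X) := by
  rw [comp_assoc]
  congr 1
  simp only [add_comp, mul_comp, C_comp, X_comp, C_add, C_mul]
  ring

omit [Fintype J] in
variable {R} in
theorem Chart.transport {F F' : (j : J) → io j → K[X]} {T T' : Tr k J io} {sp : K → T.Pt}
    {sp' : K → T'.Pt} {A A' : Set K} {a : T.Vx} {a' : T'.Vx} {x0 ρ0 : K} {e : J → K}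
    (hF : ∀ j i, F' j i = C (e j) * (F j i).comp (C x0 + C ρ0 * X)) (hρ : ρ0 ≠ 0)
    (hg : T.vg a = T'.vg a') (hh : T.hole a = T'.hole a')
    (hsp : ∀ w ∈ A', ∀ z, sp' w = (a', z) → x0 + ρ0 * w ∈ A ∧ sp (x0 + ρ0 * w) = (a, z))
    (h : Chart R F' T' sp' A' a') : Chart R F T sp A a := by
  obtain ⟨x, ρ, c, h', hρ', hh', hP, hr, hu⟩ := h
  refine ⟨x0 + ρ0 * x, ρ0 * ρ, fun j => c j * e j, h', mul_ne_zero hρ hρ', hh', fun j i => ?_,
    fun z => hh ▸ hr z, fun u huO hu' => ?_⟩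
  · have := hP j i
    rw [hF, mul_comp, C_comp, comp_aff_aff, ← mul_assoc, ← C_mul] at this
    rw [hg]; exact this
  · obtain ⟨h1, h2⟩ := hu u huO (hh ▸ hu')
    have := hsp _ h1 _ h2
    rwa [show x0 + ρ0 * (x + ρ * u) = x0 + ρ0 * x + ρ0 * ρ * u by ring] at this

/-- hypotheses on the open unit disc. -/
structure OH (m : J → ℕ) (F : (j : J) → io j → K[X]) : Prop where
  int : ∀ j i, PInt R.O (F j i)
  low : ∀ j i l, l < m j → R.v ((F j i).coeff l) < 1
  top : ∀ j, ∃ i, R.p ((F j i).coeff (m j)) ≠ 0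
  cop : ∀ y, R.v y < 1 → ∀ j, ∃ i, (F j i).eval y ≠ 0

/-- hypotheses on the closed unit disc. -/
structure CH (m : J → ℕ) (F : (j : J) → io j → K[X]) : Prop where
  int : ∀ j i, PInt R.O (F j i)
  deg : ∀ j i, (R.pP (F j i)).natDegree ≤ m j
  top : ∀ j, ∃ i, R.p ((F j i).coeff (m j)) ≠ 0
  cop : ∀ y ∈ R.O, ∀ j, ∃ i, (F j i).eval y ≠ 0

/-- solution on the open unit disc. -/
structure Op (m : J → ℕ) (F : (j : J) → io j → K[X]) where
  S : Tr k J io
  ok : S.OK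
  deg : S.deg = m
  top : ∀ j i, S.ev (S.root, none) j i = R.p ((F j i).coeff (m j))
  sp : K → S.Pt
  nrm : K → J → K
  ν : (J → ℕ) → K[X] → R.O.ValueGroup
  ev : ∀ y, R.v y < 1 → ∀ j i, nrm y j * (F j i).eval y ∈ R.O ∧
    R.p (nrm y j * (F j i).eval y) = S.ev (sp y) j i
  surj : ∀ pt, ∃ y, R.v y < 1 ∧ S.Same pt (sp y)
  ν_mul : ∀ kk c σ, ν kk (C c * σ) = R.v c * ν kk σ
  ν_low : ∀ kk σ, ν kk σ ≤ 1 → PInt R.O σ → ∀ l < dot kk m, R.v (σ.coeff l) < 1
  sec : ∀ kk σ, ν kk σ ≤ 1 → PInt R.O σ → ∃ s, S.IsSec kk s ∧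
    val kk S s (S.root, none) = R.p (σ.coeff (dot kk m)) ∧
    (∀ y, R.v y < 1 → lam nrm kk σ y ∈ R.O ∧ R.p (lam nrm kk σ y) = val kk S s (sp y)) ∧
    (s = 0 → ν kk σ < 1)
  chart : ∀ a, Chart R F S sp {y | R.v y < 1} a

/-- solution on the closed unit disc. -/
structure Cs (m : J → ℕ) (F : (j : J) → io j → K[X]) where
  T : Tr k J io
  ok : T.OK
  deg : T.deg = m
  top : ∀ j i, T.ev (T.root, none) j i = R.p ((F j i).coeff (m j))
  sp : K → T.Pt
  nrm : K → J → K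
  ν : (J → ℕ) → K[X] → R.O.ValueGroup
  ev : ∀ y ∈ R.O, ∀ j i, nrm y j * (F j i).eval y ∈ R.O ∧
    R.p (nrm y j * (F j i).eval y) = T.ev (sp y) j i
  surj : ∀ pt, pt = (T.root, none) ∨ ∃ y ∈ R.O, T.Same pt (sp y)
  ν_mul : ∀ kk c σ, ν kk (C c * σ) = R.v c * ν kk σ
  ν_gn : ∀ kk σ, R.gn σ ≤ ν kk σ
  sec : ∀ kk σ, ν kk σ ≤ 1 → (R.pP σ).natDegree ≤ dot kk m → ∃ s, T.IsSec kk s ∧
    val kk T s (T.root, none) = R.p (σ.coeff (dot kk m)) ∧
    (∀ y ∈ R.O, lam nrm kk σ y ∈ R.O ∧ R.p (lam nrm kk σ y) = val kk T s (sp y)) ∧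
    (s = 0 → ν kk σ < 1)
  chart : ∀ a, Chart R F T sp (R.O : Set K) a

/-- admissible points when only the holes in `H` have been filled. -/
def Adm (h : J → k[X]) (H : Finset k) (y : K) : Prop :=
  y ∈ R.O ∧ (R.p y ∈ H ∨ ∀ j, ¬ (h j).IsRoot (R.p y))

/-- partial solution on the closed disc. -/
structure ClH (F : (j : J) → io j → K[X]) (h : J → k[X]) (d0 : J → ℕ)
    (g : (j : J) → io j → k[X]) (H : Finset k) where
  T : Tr k J io
  ok : T.OK
  rd : T.vd T.root = d0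
  rg : T.vg T.root = g
  rh : T.hole T.root = ↑H
  deg : ∀ j, T.deg j = d0 j + ∑ p ∈ H, rootMultiplicity p (h j)
  sp : K → T.Pt
  nrm : K → J → K
  ν : (J → ℕ) → K[X] → R.O.ValueGroup
  ev : ∀ y, Adm R h H y → ∀ j i, nrm y j * (F j i).eval y ∈ R.O ∧
    R.p (nrm y j * (F j i).eval y) = T.ev (sp y) j i
  surj : ∀ pt, pt = (T.root, none) ∨ (∃ z, pt = (T.root, some z) ∧ z ∉ H ∧ ∃ j, (h j).IsRoot z) ∨
    ∃ y, Adm R h H y ∧ T.Same pt (sp y)
  ν_mul : ∀ kk c σ, ν kk (C c * σ) = R.v c * ν kk σ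
  ν_gn : ∀ kk σ, R.gn σ ≤ ν kk σ
  ν_dvd : ∀ kk σ, ν kk σ ≤ 1 → ∀ p ∈ H,
    (X - C p) ^ dot kk (fun j => rootMultiplicity p (h j)) ∣ R.pP σ
  sec : ∀ kk σ, ν kk σ ≤ 1 → ∀ s0, R.pP σ = (∏ j, h j ^ kk j) * s0 →
    s0.natDegree ≤ dot kk d0 → ∃ s, T.IsSec kk s ∧ s T.root = s0 ∧
    (∀ y, Adm R h H y → lam nrm kk σ y ∈ R.O ∧ R.p (lam nrm kk σ y) = val kk T s (sp y)) ∧
    (s = 0 → ν kk σ < 1)
  chart : ∀ a, a = T.root ∨ Chart R F T sp {y | y ∈ R.O ∧ R.p y ∈ H} a
  root_sp : ∀ u ∈ R.O, R.p u ∉ H → sp u = (T.root, some (R.p u))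

variable {R}

theorem clH_empty {F : (j : J) → io j → K[X]} {h : J → k[X]} {d0 : J → ℕ}
    {g : (j : J) → io j → k[X]} (hint : ∀ j i, PInt R.O (F j i))
    (hfac : ∀ j i, R.pP (F j i) = h j * g j i) (hok : (leaf d0 g : Tr k J io).OK) :
    Nonempty (ClH R F h d0 g ∅) := by
  choose lf hlf hlf' using R.exists_lift
  refine ⟨{
    T := leaf d0 g
    ok := hok
    rd := rfl
    rg := rfl
    rh := by simp [hole]
    deg := fun j => by simp [Tr.deg]
    sp := fun y => ((), some (R.p y))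
    nrm := fun y j => lf ((h j).eval (R.p y))⁻¹
    ν := fun _ σ => R.gn σ
    ev := ?_
    surj := ?_
    ν_mul := fun _ c σ => R.gn_C_mul c σ
    ν_gn := fun _ _ => le_rfl
    ν_dvd := fun _ _ _ p hp => absurd hp (Finset.notMem_empty _)
    sec := ?_
    chart := fun a => Or.inl rfl
    root_sp := fun _ _ _ => rfl }⟩
  · rintro y ⟨hy, hA⟩ j i
    have hA' := hA.resolve_left (Finset.notMem_empty _) j
    obtain ⟨h1, h2⟩ := (hint j i).eval hy
    refine ⟨R.O.mul_mem _ _ (hlf _) h1, ?_⟩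
    rw [R.p_mul (hlf _) h1, hlf', h2, hfac, eval_mul, ← mul_assoc, inv_mul_cancel₀ hA', one_mul]
    rfl
  · rintro ⟨⟨⟩, _ | z⟩
    · exact Or.inl rfl
    · by_cases hz : ∃ j, (h j).IsRoot z
      · exact Or.inr (Or.inl ⟨z, rfl, Finset.notMem_empty _, hz⟩)
      · refine Or.inr (Or.inr ⟨lf z, ⟨hlf z, Or.inr fun j hj => hz ⟨j, hlf' z ▸ hj⟩⟩, ?_⟩)
        rw [hlf']
        exact Same.refl _ _
  · intro kk σ hν s0 hs0 hdeg
    have hσ := R.gn_le_one_iff.1 hν
    refine ⟨fun _ => s0, hdeg, rfl, ?_, fun h0 => R.gn_lt_one hσ ?_⟩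
    · rintro y ⟨hy, hA⟩
      have hA' := hA.resolve_left (Finset.notMem_empty _)
      obtain ⟨h1, h2⟩ := hσ.eval hy
      have hp : (∏ j, lf ((h j).eval (R.p y))⁻¹ ^ kk j) ∈ R.O :=
        prod_mem fun j _ => pow_mem (hlf _) _
      refine ⟨R.O.mul_mem _ _ hp h1, ?_⟩
      unfold lam
      rw [R.p_mul hp h1, R.p_prod _ _ fun j _ => pow_mem (hlf _) _, h2, hs0, eval_mul,
        ← mul_assoc, eval_prod, ← Finset.prod_mul_distrib, Finset.prod_eq_one, one_mul]
      · rfl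
      · intro j _
        rw [R.p_pow (hlf _), hlf', eval_pow, ← mul_pow, inv_mul_cancel₀ (hA' j), one_pow]
    · rw [hs0, show s0 = 0 from congrFun h0 (), mul_zero]

theorem shift_fac (p : k) (n : ℕ) (q : k[X]) :
    ((X - C p) ^ n * q).comp (C p + C 1 * X) = X ^ n * q.comp (C p + C 1 * X) := by
  simp [mul_comp, pow_comp, sub_comp]

theorem coeff_shift_self (p : k) (n : ℕ) (q : k[X]) :
    (X ^ n * q.comp (C p + C 1 * X)).coeff n = q.eval p := by
  rw [coeff_X_pow_mul', if_pos le_rfl, Nat.sub_self, coeff_zero_eq_eval_zero, eval_comp]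
  simp

theorem dvd_of_shift {p : k} {n : ℕ} {q : k[X]} {c : k} (hc : c ≠ 0)
    (h : X ^ n ∣ C c * q.comp (C p + C 1 * X)) : (X - C p) ^ n ∣ q := by
  obtain ⟨w, hw⟩ := h
  refine ⟨C c⁻¹ * w.comp (X - C p), ?_⟩
  have := congrArg (fun f => C c⁻¹ * f.comp (X - C p)) hw
  simp only [mul_comp, C_comp, comp_assoc, add_comp, X_comp, pow_comp] at this
  rw [← mul_assoc, ← C_mul, inv_mul_cancel₀ hc, C_1, one_mul, one_mul, add_sub_cancel,
    comp_X] at this
  rw [this]; ring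

theorem clH_insert [DecidableEq k] {F : (j : J) → io j → K[X]} {h : J → k[X]} {d0 : J → ℕ}
    {g : (j : J) → io j → k[X]} (hint : ∀ j i, PInt R.O (F j i))
    (hfac : ∀ j i, R.pP (F j i) = h j * g j i) (hh : ∀ j, h j ≠ 0)
    (hg : ∀ j z, ∃ i, (g j i).eval z ≠ 0) (hcop : ∀ y ∈ R.O, ∀ j, ∃ i, (F j i).eval y ≠ 0)
    {H : Finset k} {p : k} (hp : p ∉ H)
    (hop : ∀ F' : (j : J) → io j → K[X], OH R (fun j => rootMultiplicity p (h j)) F' →
      Nonempty (Op R (fun j => rootMultiplicity p (h j)) F'))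
    (A : ClH R F h d0 g H) : Nonempty (ClH R F h d0 g (insert p H)) := by
  classical
  obtain ⟨pt, hpt, hpt'⟩ := R.exists_lift p
  choose h' hh' hnd using fun j => exists_eq_pow_rootMultiplicity_mul_and_not_dvd (h j) (hh j) p
  have hne : ∀ j, (h' j).eval p ≠ 0 := fun j h0 => hnd j (dvd_iff_isRoot.2 h0)
  choose e he he' using fun j => R.exists_lift ((h' j).eval p)⁻¹
  set μ : J → ℕ := fun j => rootMultiplicity p (h j) with hμ
  obtain ⟨hL, eL⟩ := Rd.pInt_aff (R := R) hpt R.O.one_mem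
  rw [hpt', R.p_one] at eL
  -- shifting an integral polynomial
  have shift : ∀ (c : K) (σ : K[X]), c ∈ R.O → PInt R.O σ →
      PInt R.O (C c * σ.comp (C pt + C 1 * X)) ∧
      R.pP (C c * σ.comp (C pt + C 1 * X)) = C (R.p c) * (R.pP σ).comp (C p + C 1 * X) := by
    intro c σ hc hσ
    obtain ⟨h1, e1⟩ := hσ.comp hL
    obtain ⟨h2, e2⟩ := (Rd.pInt_C hc).1.mul h1
    exact ⟨h2, by rw [e2, e1, eL, (Rd.pInt_C hc).2]⟩
  set F' : (j : J) → io j → K[X] := fun j i => C (e j) * (F j i).comp (C pt + C 1 * X) with hF'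
  have eF' : ∀ j i, R.pP (F' j i) =
      C ((h' j).eval p)⁻¹ * (X ^ μ j * (h' j * g j i).comp (C p + C 1 * X)) := by
    intro j i
    rw [(shift _ _ (he j) (hint j i)).2, he', hfac, ← shift_fac]
    conv_lhs => rw [hh' j]
    rw [mul_assoc]
  have topF' : ∀ j i, R.p ((F' j i).coeff (μ j)) = (g j i).eval p := by
    intro j i
    rw [← R.coeff_pP, eF', coeff_C_mul, coeff_shift_self, eval_mul, ← mul_assoc,
      inv_mul_cancel₀ (hne j), one_mul]
  have evF' : ∀ j i y, (F' j i).eval (y - pt) = e j * (F j i).eval y := by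
    intro j i y
    simp [hF', eval_comp]
  have hOH : OH R μ F' := by
    refine ⟨fun j i => (shift _ _ (he j) (hint j i)).1, fun j i l hl => ?_, fun j => ?_,
      fun y hy j => ?_⟩
    · rw [← R.p_eq_zero_iff ((shift _ _ (he j) (hint j i)).1 l), ← R.coeff_pP, eF', coeff_C_mul,
        coeff_X_pow_mul', if_neg (by omega), mul_zero]
    · obtain ⟨i, hi⟩ := hg j p
      exact ⟨i, by rw [topF']; exact hi⟩
    · obtain ⟨i, hi⟩ := hcop (y + pt) (R.O.add_mem _ _ (R.mem_of_lt hy) hpt) j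
      refine ⟨i, ?_⟩
      have := evF' j i (y + pt)
      rw [add_sub_cancel_right] at this
      rw [this]
      refine mul_ne_zero (fun h0 => ?_) hi
      have := he' j
      rw [h0, R.p_zero] at this
      exact inv_ne_zero (hne j) this.symm
  obtain ⟨B⟩ := hop F' hOH
  have hpA : p ∉ A.T.hole A.T.root := by rw [A.rh]; exact hp
  have hok : (glue A.T p B.S).OK := by
    refine ⟨A.ok, B.ok, hpA, fun j i => ?_⟩
    rw [B.top, topF']
    simp only [Tr.ev, A.rg, hv_some]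
  have hin : ∀ y, y ∈ R.O → R.p y = p → R.v (y - pt) < 1 := fun y hy hyp =>
    R.v_sub_lt hy hpt (hyp.trans hpt'.symm)
  have hout : ∀ w, R.v w < 1 → pt + w ∈ R.O ∧ R.p (pt + w) = p := fun w hw => by
    have := R.p_congr (y := pt + w) hpt (by rwa [add_sub_cancel_left])
    exact ⟨this.1, this.2.trans hpt'⟩
  let sp : K → (glue A.T p B.S).Pt := fun y =>
    if y ∈ R.O ∧ R.p y = p then (Sum.inr (B.sp (y - pt)).1, (B.sp (y - pt)).2)
    else (Sum.inl (A.sp y).1, (A.sp y).2)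
  let nrm : K → J → K := fun y j =>
    if y ∈ R.O ∧ R.p y = p then B.nrm (y - pt) j * e j else A.nrm y j
  let tr : (J → ℕ) → K[X] → K[X] := fun kk σ =>
    C (∏ j, e j ^ kk j) * σ.comp (C pt + C 1 * X)
  have hE : ∀ kk : J → ℕ, (∏ j, e j ^ kk j) ∈ R.O := fun kk =>
    prod_mem fun j _ => pow_mem (he j) _
  have hE' : ∀ kk : J → ℕ, R.p (∏ j, e j ^ kk j) = (∏ j, (h' j).eval p ^ kk j)⁻¹ := by
    intro kk
    rw [R.p_prod _ _ fun j _ => pow_mem (he j) _, ← Finset.prod_inv_distrib]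
    exact Finset.prod_congr rfl fun j _ => by rw [R.p_pow (he j), he', inv_pow]
  have hE0 : ∀ kk : J → ℕ, (∏ j, (h' j).eval p ^ kk j) ≠ 0 := fun kk =>
    Finset.prod_ne_zero_iff.2 fun j _ => pow_ne_zero _ (hne j)
  have hAdm : ∀ y, Adm R h (insert p H) y → ¬ (y ∈ R.O ∧ R.p y = p) → Adm R h H y := by
    rintro y ⟨hy, hA⟩ hn
    refine ⟨hy, hA.imp_left fun hm => ?_⟩
    exact (Finset.mem_insert.1 hm).resolve_left fun h0 => hn ⟨hy, h0⟩
  have hsurjB : ∀ q : B.S.Pt, ∃ y, Adm R h (insert p H) y ∧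
      (glue A.T p B.S).Same (Sum.inr q.1, q.2) (sp y) := by
    intro q
    obtain ⟨w, hw, hs⟩ := B.surj q
    refine ⟨pt + w, ⟨(hout w hw).1, Or.inl ?_⟩, ?_⟩
    · rw [(hout w hw).2]; exact Finset.mem_insert_self _ _
    · simp only [sp, if_pos (hout w hw), add_sub_cancel_left]
      exact Same.inr _ _ hs
  refine ⟨{
    T := glue A.T p B.S
    ok := hok
    rd := A.rd
    rg := A.rg
    rh := ?_
    deg := ?_
    sp := sp
    nrm := nrm
    ν := fun kk σ => max (A.ν kk σ) (B.ν kk (tr kk σ))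
    ev := ?_
    surj := ?_
    ν_mul := ?_
    ν_gn := fun kk σ => (A.ν_gn kk σ).trans (le_max_left _ _)
    ν_dvd := ?_
    sec := ?_
    chart := ?_
    root_sp := ?_ }⟩
  · ext x
    rw [root_glue, mem_hole_inl, A.rh]
    simp [or_comm]
  · intro j
    show A.T.deg j + B.S.deg j = _
    rw [A.deg, B.deg, Finset.sum_insert hp]
    ring
  · intro y hy j i
    by_cases hc : y ∈ R.O ∧ R.p y = p
    · simp only [sp, nrm, if_pos hc]
      have := B.ev _ (hin y hc.1 hc.2) j i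
      rw [evF', ← mul_assoc] at this
      exact this
    · simp only [sp, nrm, if_neg hc]
      exact A.ev y (hAdm y hy hc) j i
  · rintro ⟨a | a, x⟩
    · rcases A.surj (a, x) with h1 | ⟨z, h1, hz, hz'⟩ | ⟨y, hy, hs⟩
      · left; obtain ⟨rfl, rfl⟩ := Prod.mk.inj h1; rfl
      · obtain ⟨rfl, rfl⟩ := Prod.mk.inj h1
        by_cases hzp : z = p
        · subst hzp
          obtain ⟨y, hy, hs⟩ := hsurjB (B.S.root, none)
          exact Or.inr (Or.inr ⟨y, hy, (same_node hok).trans hs⟩)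
        · exact Or.inr (Or.inl ⟨z, rfl, by simp [hzp, hz], hz'⟩)
      · by_cases hc : y ∈ R.O ∧ R.p y = p
        · have h1 := A.root_sp y hc.1 (hc.2 ▸ hp)
          rw [h1, hc.2] at hs
          obtain ⟨y', hy', hs'⟩ := hsurjB (B.S.root, none)
          exact Or.inr (Or.inr ⟨y', hy', (Same.inl p B.S hs).trans ((same_node hok).trans hs')⟩)
        · refine Or.inr (Or.inr ⟨y, ⟨hy.1, hy.2.imp_left Finset.mem_insert_of_mem⟩, ?_⟩)
          simp only [sp, if_neg hc]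
          exact Same.inl p B.S hs
    · exact Or.inr (Or.inr (hsurjB (a, x)))
  · intro kk c σ
    have : tr kk (C c * σ) = C c * tr kk σ := by
      simp only [tr, mul_comp, C_comp]; ring
    rw [this, A.ν_mul, B.ν_mul, mul_max]
  · intro kk σ hν q hq
    have hν1 := (le_max_left _ _).trans hν
    have hν2 := (le_max_right _ _).trans hν
    rcases Finset.mem_insert.1 hq with rfl | hq
    · have hσ := R.gn_le_one_iff.1 ((A.ν_gn kk σ).trans hν1)
      obtain ⟨h1, e1⟩ := shift _ _ (hE kk) hσ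
      refine dvd_of_shift (c := R.p (∏ j, e j ^ kk j)) (by rw [hE']; exact inv_ne_zero (hE0 kk)) ?_
      rw [← e1, X_pow_dvd_iff]
      intro l hl
      rw [R.coeff_pP]
      exact R.p_eq_zero_of_lt (B.ν_low kk _ hν2 h1 l hl)
    · exact A.ν_dvd kk σ hν1 q hq
  · intro kk σ hν s0 hs0 hdeg
    have hν1 := (le_max_left _ _).trans hν
    have hν2 := (le_max_right _ _).trans hν
    have hσ := R.gn_le_one_iff.1 ((A.ν_gn kk σ).trans hν1)
    obtain ⟨h1, e1⟩ := shift _ _ (hE kk) hσ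
    obtain ⟨s1, hs1, hr1, hv1, hz1⟩ := A.sec kk σ hν1 s0 hs0 hdeg
    obtain ⟨s2, hs2, hr2, hv2, hz2⟩ := B.sec kk (tr kk σ) hν2 h1
    refine ⟨Sum.elim s1 s2, ⟨hs1, hs2, ?_⟩, hr1, fun y hy => ?_, fun h0 => ?_⟩
    · show val kk B.S s2 _ = val kk A.T s1 _
      rw [hr2, ← R.coeff_pP, e1, hs0]
      have : (∏ j, h j ^ kk j) = (X - C p) ^ dot kk μ * ∏ j, h' j ^ kk j := by
        rw [dot, ← Finset.prod_pow_eq_pow_sum, ← Finset.prod_mul_distrib]
        refine Finset.prod_congr rfl fun j _ => ?_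
        conv_lhs => rw [hh' j]
        rw [mul_pow, ← pow_mul, mul_comm (kk j)]
      rw [this, mul_assoc, shift_fac, coeff_C_mul, coeff_shift_self, eval_mul, eval_prod, hE']
      simp only [eval_pow]
      rw [← mul_assoc, inv_mul_cancel₀ (hE0 kk), one_mul]
      simp only [val, hr1, hv_some]
    · by_cases hc : y ∈ R.O ∧ R.p y = p
      · have := hv2 _ (hin y hc.1 hc.2)
        have e2 : lam B.nrm kk (tr kk σ) (y - pt) = lam nrm kk σ y := by
          simp only [lam, nrm, tr, if_pos hc, mul_pow, Finset.prod_mul_distrib, eval_mul, eval_C,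
            eval_comp, eval_add, eval_X, one_mul, add_sub_cancel, mul_assoc]
        rw [e2] at this
        simp only [sp, if_pos hc]
        exact this
      · have := hv1 y (hAdm y hy hc)
        have e2 : lam A.nrm kk σ y = lam nrm kk σ y := by
          simp only [lam, nrm, if_neg hc]
        rw [e2] at this
        simp only [sp, if_neg hc]
        exact this
    · exact max_lt (hz1 (funext fun a => congrFun h0 (Sum.inl a)))
        (hz2 (funext fun a => congrFun h0 (Sum.inr a)))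
  · rintro (a | a)
    · by_cases ha : a = A.T.root
      · left; rw [ha]; rfl
      · right
        refine Chart.transport (T' := A.T) (a' := a) (F' := F) (x0 := 0) (ρ0 := 1) (e := fun _ => 1)
          (fun j i => by simp) one_ne_zero rfl ?_ ?_ ((A.chart a).resolve_left ha)
        · ext x; rw [mem_hole_inl]; simp [ha]
        · rintro w ⟨hw, hw'⟩ z hz
          have hc : ¬ (w ∈ R.O ∧ R.p w = p) := fun hc => hp (hc.2 ▸ hw')
          rw [zero_add, one_mul]
          refine ⟨⟨hw, Finset.mem_insert_of_mem hw'⟩, ?_⟩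
          simp only [sp, if_neg hc, hz]
    · right
      refine Chart.transport (T' := B.S) (a' := a) (F' := F') (x0 := pt) (ρ0 := 1) (e := e)
        (fun j i => rfl) one_ne_zero rfl rfl ?_ (B.chart a)
      intro w hw z hz
      rw [one_mul]
      refine ⟨⟨(hout w hw).1, by rw [(hout w hw).2]; exact Finset.mem_insert_self _ _⟩, ?_⟩
      simp only [sp, if_pos (hout w hw), add_sub_cancel_left, hz]
  · intro u hu hu'
    rw [Finset.mem_insert, not_or] at hu'
    have hc : ¬ (u ∈ R.O ∧ R.p u = p) := fun hc => hu'.1 hc.2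
    simp only [sp, if_neg hc, A.root_sp u hu hu'.2]
    rfl

end Crest.Agent.X262.Bub96
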