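import Crest.Agent.X262.Bub96.ExA

/-! # The reduction tree: bubbling and existence -/

set_option autoImplicit false

namespace Crest.Agent.X262.Bub96

open Polynomial Tr

variable {K : Type*} [Field K] {k : Type*} [Field k] {R : Rd K k} {J : Type*} [Fintype J]
  {io : J → Type*}

/-- closed discs from open discs with smaller hole multiplicities. -/
theorem cs_of_op [IsAlgClosed k] [∀ j, Finite (io j)] {m : J → ℕ}
    {F : (j : J) → io j → K[X]} (hF : CH R m F) {M : ℕ}
    (hM : ∀ (p : k) (μ : J → ℕ), (∀ j i, (X - C p) ^ μ j ∣ R.pP (F j i)) → ∑ j, μ j < M)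
    (hop : ∀ (μ : J → ℕ) (F' : (j : J) → io j → K[X]), 0 < ∑ j, μ j → ∑ j, μ j < M →
      OH R μ F' → Nonempty (Op R μ F')) : Nonempty (Cs R m F) := by
  classical
  have := fun j => Fintype.ofFinite (io j)
  let h : J → k[X] := fun j => Finset.univ.gcd fun i => R.pP (F j i)
  have hdvd : ∀ j i, h j ∣ R.pP (F j i) := fun j i => Finset.gcd_dvd (Finset.mem_univ i)
  choose i0 hi0 using hF.top
  have hne : ∀ j, R.pP (F j (i0 j)) ≠ 0 := fun j h0 => hi0 j (by
    rw [← R.coeff_pP, h0, coeff_zero])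
  have hh : ∀ j, h j ≠ 0 := fun j h0 => hne j (eq_zero_of_zero_dvd (h0 ▸ hdvd j (i0 j)))
  have hmon : ∀ j, (h j).Monic := fun j => by
    have : normalize (h j) = h j := Finset.normalize_gcd
    rw [← this]; exact monic_normalize (hh j)
  choose g hg using hdvd
  have hle : ∀ j, (h j).natDegree ≤ m j := fun j =>
    (natDegree_le_of_dvd ⟨_, hg j (i0 j)⟩ (hne j)).trans (hF.deg j (i0 j))
  let d0 : J → ℕ := fun j => m j - (h j).natDegree
  have hd0 : ∀ j, (h j).natDegree + d0 j = m j := fun j => Nat.add_sub_cancel' (hle j)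
  have hgd : ∀ j i, (g j i).natDegree ≤ d0 j := fun j i => by
    by_cases h0 : g j i = 0
    · rw [h0, natDegree_zero]; exact Nat.zero_le _
    · have := hF.deg j i
      rw [hg, natDegree_mul (hh j) h0] at this
      have := hd0 j
      omega
  have htop : ∀ j i, (g j i).coeff (d0 j) = R.p ((F j i).coeff (m j)) := fun j i => by
    rw [← R.coeff_pP, hg, ← hd0 j, coeff_mul_add_eq_of_natDegree_le le_rfl (hgd j i),
      (hmon j).coeff_natDegree, one_mul]
  have hgz : ∀ j z, ∃ i, (g j i).eval z ≠ 0 := by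
    intro j z
    by_contra hc
    push Not at hc
    have : h j * (X - C z) ∣ h j := by
      refine Finset.dvd_gcd fun i _ => ?_
      rw [hg]
      exact mul_dvd_mul_left _ (dvd_iff_isRoot.2 (hc i))
    have := natDegree_le_of_dvd this (hh j)
    rw [natDegree_mul (hh j) (X_sub_C_ne_zero z), natDegree_X_sub_C] at this
    omega
  have hok : (leaf d0 g : Tr k J io).OK := by
    refine ⟨hgd, fun j x => ?_⟩
    cases x with
    | none => exact ⟨i0 j, by rw [hv_none, htop]; exact hi0 j⟩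
    | some z => exact hgz j z
  let Hs : Finset k := (∏ j, h j).roots.toFinset
  have hP : (∏ j, h j) ≠ 0 := Finset.prod_ne_zero_iff.2 fun j _ => hh j
  have hHs : ∀ z, z ∈ Hs ↔ ∃ j, (h j).IsRoot z := fun z => by
    simp only [Hs, Multiset.mem_toFinset, mem_roots hP, IsRoot.def, eval_prod,
      Finset.prod_eq_zero_iff, Finset.mem_univ, true_and]
  have key : ∀ H : Finset k, H ⊆ Hs → Nonempty (ClH R F h d0 g H) := by
    intro H
    induction H using Finset.induction_on with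
    | empty => exact fun _ => clH_empty hF.int hg hok
    | insert p H hp ih =>
      intro hsub
      obtain ⟨A⟩ := ih fun x hx => hsub (Finset.mem_insert_of_mem hx)
      refine clH_insert hF.int hg hh hgz hF.cop hp (fun F' hF' => hop _ F' ?_ ?_ hF') A
      · obtain ⟨j, hj⟩ := (hHs p).1 (hsub (Finset.mem_insert_self _ _))
        exact lt_of_lt_of_le ((rootMultiplicity_pos (hh j)).2 hj)
          (Finset.single_le_sum (f := fun j => rootMultiplicity p (h j))
            (fun _ _ => Nat.zero_le _) (Finset.mem_univ j))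
      · exact hM p _ fun j i => (pow_rootMultiplicity_dvd (h j) p).trans ⟨_, hg j i⟩
  obtain ⟨A⟩ := key Hs subset_rfl
  have hAdm : ∀ y ∈ R.O, Adm R h Hs y := fun y hy => ⟨hy, by
    by_cases hc : R.p y ∈ Hs
    · exact Or.inl hc
    · exact Or.inr fun j hj => hc ((hHs _).2 ⟨j, hj⟩)⟩
  have hfac : ∀ j, h j = ∏ p ∈ Hs, (X - C p) ^ rootMultiplicity p (h j) := by
    intro j
    have h1 := (IsAlgClosed.splits (h j)).eq_prod_roots_of_monic (hmon j)
    rw [prod_multiset_root_eq_finset_root] at h1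
    refine h1.trans (Finset.prod_subset ?_ ?_)
    · intro z hz
      rw [Multiset.mem_toFinset, mem_roots (hh j)] at hz
      exact (hHs z).2 ⟨j, hz⟩
    · intro z _ hz
      rw [Multiset.mem_toFinset, mem_roots (hh j)] at hz
      rw [rootMultiplicity_eq_zero hz, pow_zero]
  have hdeg : ∀ j, ∑ p ∈ Hs, rootMultiplicity p (h j) = (h j).natDegree := by
    intro j
    conv_rhs => rw [hfac j]
    rw [natDegree_prod_of_monic _ _ fun p _ => (monic_X_sub_C p).pow _]
    simp
  refine ⟨{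
    T := A.T
    ok := A.ok
    deg := funext fun j => by rw [A.deg, hdeg, add_comm, hd0]
    top := fun j i => by simp only [Tr.ev, A.rg, A.rd, hv_none, htop]
    sp := A.sp
    nrm := A.nrm
    ν := A.ν
    ev := fun y hy => A.ev y (hAdm y hy)
    surj := fun pt => ?_
    ν_mul := A.ν_mul
    ν_gn := A.ν_gn
    sec := ?_
    chart := fun a => ?_ }⟩
  · rcases A.surj pt with h1 | ⟨z, -, hz, hz'⟩ | ⟨y, hy, hs⟩
    · exact Or.inl h1
    · exact absurd ((hHs z).2 hz') hz
    · exact Or.inr ⟨y, hy.1, hs⟩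
  · intro kk σ hν hσd
    have hPm : (∏ j, h j ^ kk j).Monic := monic_prod_of_monic _ _ fun j _ => (hmon j).pow _
    have hPd : (∏ j, h j ^ kk j).natDegree + dot kk d0 = dot kk m := by
      rw [natDegree_prod_of_monic _ _ fun j _ => (hmon j).pow _, dot, dot,
        ← Finset.sum_add_distrib]
      refine Finset.sum_congr rfl fun j _ => ?_
      rw [(hmon j).natDegree_pow, ← mul_add, hd0]
    have hdv : (∏ j, h j ^ kk j) ∣ R.pP σ := by
      have e : (∏ j, h j ^ kk j) =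
          ∏ p ∈ Hs, (X - C p) ^ dot kk (fun j => rootMultiplicity p (h j)) := by
        simp only [dot, ← Finset.prod_pow_eq_pow_sum]
        rw [Finset.prod_comm]
        refine Finset.prod_congr rfl fun j _ => ?_
        conv_lhs => rw [hfac j]
        rw [← Finset.prod_pow]
        exact Finset.prod_congr rfl fun p _ => by rw [← pow_mul, mul_comm]
      rw [e]
      refine Finset.prod_dvd_of_coprime (fun p _ q _ hpq => ?_) (A.ν_dvd kk σ hν)
      exact (pairwise_coprime_X_sub_C Function.injective_id hpq).pow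
    obtain ⟨s0, hs0⟩ := hdv
    have hs0d : s0.natDegree ≤ dot kk d0 := by
      by_cases h0 : s0 = 0
      · rw [h0, natDegree_zero]; exact Nat.zero_le _
      · rw [hs0, natDegree_mul hPm.ne_zero h0] at hσd
        omega
    obtain ⟨s, hs, hr, hv, hz⟩ := A.sec kk σ hν s0 hs0 hs0d
    refine ⟨s, hs, ?_, fun y hy => hv y (hAdm y hy), hz⟩
    rw [← R.coeff_pP, hs0, ← hPd, coeff_mul_add_eq_of_natDegree_le le_rfl hs0d,
      hPm.coeff_natDegree, one_mul]
    simp only [val, hr, A.rd, hv_none]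
  · rcases A.chart a with rfl | hc
    · refine ⟨0, 1, fun _ => 1, h, one_ne_zero, hh, fun j i => ?_, fun z => ?_,
        fun u hu hu' => ?_⟩
      · rw [A.rg, ← hg]
        simpa using hF.int j i
      · rw [A.rh]; exact hHs z
      · rw [zero_add, one_mul]
        rw [A.rh] at hu'
        exact ⟨hu, A.root_sp u hu hu'⟩
    · exact Chart.transport (F' := F) (x0 := 0) (ρ0 := 1) (e := fun _ => 1)
        (fun j i => by simp) one_ne_zero rfl rfl
        (fun w hw z hz => by rw [zero_add, one_mul]; exact ⟨hw.1, hz⟩) hc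

theorem coeff_aff (P : K[X]) (c a ρ : K) (l : ℕ) :
    (C c * P.comp (C a + C ρ * X)).coeff l = c * ((P.comp (C a + C 1 * X)).coeff l * ρ ^ l) := by
  have := comp_aff_aff P a 1 0 ρ
  rw [mul_zero, add_zero, one_mul, C_0, zero_add] at this
  rw [coeff_C_mul, ← this, comp_C_mul_X_coeff]

theorem eval_aff (P : K[X]) (c a ρ w : K) :
    (C c * P.comp (C a + C ρ * X)).eval w = c * P.eval (a + ρ * w) := by
  simp [eval_comp]

theorem v_scale_low {ρ x : K} (hρ : ρ ≠ 0) {l M : ℕ} (hl : l ≤ M) :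
    (ρ ^ M)⁻¹ * (x * ρ ^ l) = x * (ρ ^ (M - l))⁻¹ := by
  obtain ⟨t, rfl⟩ := Nat.exists_eq_add_of_le hl
  rw [Nat.add_sub_cancel_left]
  field_simp
  ring

theorem v_scale_high {ρ x : K} (hρ : ρ ≠ 0) {l M : ℕ} (hl : M ≤ l) :
    (ρ ^ M)⁻¹ * (x * ρ ^ l) = x * ρ ^ (l - M) := by
  obtain ⟨t, rfl⟩ := Nat.exists_eq_add_of_le hl
  rw [Nat.add_sub_cancel_left]
  field_simp
  ring

/-- value outside the disc `D(a,ρ)`. -/
theorem outer {P : K[X]} {a ρ y : K} (hρ : ρ ≠ 0) {M : ℕ}
    (hI : PInt R.O (C (ρ ^ M)⁻¹ * P.comp (C a + C ρ * X))) (hy : ρ⁻¹ * (y - a) ∉ R.O)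
    (hhi : ∀ l, M < l → R.v ((P.comp (C a + C 1 * X)).coeff l) * R.v (y - a) ^ (l - M) < 1) :
    ((y - a) ^ M)⁻¹ * P.eval y ∈ R.O ∧
      R.p (((y - a) ^ M)⁻¹ * P.eval y) = R.p ((C (ρ ^ M)⁻¹ * P.comp (C a + C ρ * X)).coeff M) := by
  have hw : 1 < R.v (ρ⁻¹ * (y - a)) := not_le.1 fun h => hy (R.mem_iff.2 h)
  have := Rd.annulus (Q := C (ρ ^ M)⁻¹ * P.comp (C a + C ρ * X)) (M := M) hw (fun l _ => hI l)
    (fun l hl => by
      rw [coeff_aff, v_scale_high hρ hl.le, map_mul, mul_assoc, map_pow, ← mul_pow, ← map_mul,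
        ← mul_assoc ρ, mul_inv_cancel₀ hρ, one_mul]
      exact hhi l hl)
  rw [eval_aff, ← mul_assoc ρ, mul_inv_cancel₀ hρ, one_mul, add_sub_cancel, ← mul_assoc,
    ← mul_inv, ← mul_pow, mul_right_comm, inv_mul_cancel₀ hρ, one_mul] at this
  exact this

theorem prod_pow_inv (x : K) (kk m : J → ℕ) :
    (∏ j, ((x ^ m j)⁻¹) ^ kk j) = (x ^ dot kk m)⁻¹ := by
  rw [dot, ← Finset.prod_pow_eq_pow_sum, ← Finset.prod_inv_distrib]
  exact Finset.prod_congr rfl fun j _ => by rw [inv_pow, ← pow_mul, mul_comm]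

/-- choice of the radius. -/
theorem exists_radius [IsAlgClosed K] [∀ j, Finite (io j)] (R : Rd K k) (m : J → ℕ)
    (c : (j : J) → io j → ℕ → K) (j0 : J) (i0 : io j0) (hm : 0 < m j0) :
    ∃ ρ : K, (∀ j i l, l < m j → R.v (c j i l) ≤ R.v ρ ^ (m j - l)) ∧
      ∃ j i l, l < m j ∧ c j i l = ρ ^ (m j - l) := by
  have hr : ∀ t : (Σ j, io j × Fin (m j)), ∃ r : K, r ^ (m t.1 - t.2.2) = c t.1 t.2.1 t.2.2 :=
    fun t => IsAlgClosed.exists_pow_nat_eq _ (by have := t.2.2.2; omega)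
  choose r hr using hr
  have : Nonempty (Σ j, io j × Fin (m j)) := ⟨⟨j0, i0, ⟨0, hm⟩⟩⟩
  obtain ⟨t0, ht0⟩ := Finite.exists_max fun t => R.v (r t)
  refine ⟨r t0, fun j i l hl => ?_, t0.1, t0.2.1, t0.2.2, t0.2.2.2, (hr t0).symm⟩
  have := hr ⟨j, i, ⟨l, hl⟩⟩
  simp only at this
  rw [← this, map_pow]
  exact pow_le_pow_left₀ zero_le (ht0 _) _

/-- the bubble step: open discs from closed discs. -/
theorem op_of_cs [IsAlgClosed K] [∀ j, Finite (io j)] {m : J → ℕ}
    {F : (j : J) → io j → K[X]} (hF : OH R m F) (hm : 0 < ∑ j, m j)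
    (hcs : ∀ F' : (j : J) → io j → K[X], CH R m F' →
      (∀ (p : k) (μ : J → ℕ), (∀ j i, (X - C p) ^ μ j ∣ R.pP (F' j i)) → ∑ j, μ j < ∑ j, m j) →
      Nonempty (Cs R m F')) : Nonempty (Op R m F) := by
  classical
  obtain ⟨j0, -, hj0⟩ := Finset.exists_ne_zero_of_sum_ne_zero hm.ne'
  have hj0 : 0 < m j0 := Nat.pos_of_ne_zero hj0
  choose i1 hi1 using hF.top
  obtain ⟨a, haO, ha0, hra⟩ := Rd.exists_root (hF.int j0 (i1 j0)) (z := 0)
    (fun h0 => hi1 j0 (by rw [← R.coeff_pP, h0, coeff_zero]))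
    (by rw [IsRoot, ← coeff_zero_eq_eval_zero, R.coeff_pP]
        exact R.p_eq_zero_of_lt (hF.low _ _ _ hj0))
  have ha : R.v a < 1 := (R.p_eq_zero_iff haO).1 ha0
  obtain ⟨hL, eL⟩ := Rd.pInt_aff (R := R) haO R.O.one_mem
  rw [ha0, R.p_one] at eL
  have tay : ∀ σ : K[X], PInt R.O σ → PInt R.O (σ.comp (C a + C 1 * X)) ∧
      ∀ l, R.p ((σ.comp (C a + C 1 * X)).coeff l) = R.p (σ.coeff l) := by
    intro σ hσ
    obtain ⟨h1, e1⟩ := hσ.comp hL
    refine ⟨h1, fun l => ?_⟩
    rw [← R.coeff_pP, e1, eL, ← R.coeff_pP]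
    simp
  obtain ⟨ρ, hρle, j2, i2, l2, hl2, hρeq⟩ := exists_radius R m
    (fun j i l => ((F j i).comp (C a + C 1 * X)).coeff l) j0 (i1 j0) hj0
  have hlow : ∀ j i l, l < m j → R.v (((F j i).comp (C a + C 1 * X)).coeff l) < 1 := by
    intro j i l hl
    rw [← R.p_eq_zero_iff ((tay _ (hF.int j i)).1 l), (tay _ (hF.int j i)).2]
    exact R.p_eq_zero_of_lt (hF.low j i l hl)
  have hρ1 : R.v ρ < 1 := by
    have := hlow j2 i2 l2 hl2
    rw [hρeq, map_pow] at this
    by_contra hc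
    exact absurd this (not_lt.2 (one_le_pow₀ (not_lt.1 hc)))
  have hρ : ρ ≠ 0 := by
    rintro rfl
    obtain ⟨i, hi⟩ := hF.cop a ha j0
    have := hρle j0 i 0 hj0
    rw [map_zero, zero_pow (by omega), le_zero_iff, map_eq_zero, coeff_zero_eq_eval_zero,
      eval_comp] at this
    exact hi (by simpa using this)
  have hvρ : R.v ρ ≠ 0 := by simpa using hρ
  set F' : (j : J) → io j → K[X] := fun j i =>
    C (ρ ^ m j)⁻¹ * (F j i).comp (C a + C ρ * X) with hF'
  have hhigh : ∀ (σ : K[X]) (M l : ℕ) (t : K), PInt R.O σ → R.v t < 1 → M < l →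
      R.v ((σ.comp (C a + C 1 * X)).coeff l) * R.v t ^ (l - M) < 1 := by
    intro σ M l t hσ ht hl
    calc _ ≤ 1 * R.v t ^ (l - M) := mul_le_mul_left (R.mem_iff.1 ((tay σ hσ).1 l)) _
      _ < 1 := by rw [one_mul]; exact pow_lt_one₀ zero_le ht (by omega)
  have hhigh' : ∀ (σ : K[X]) (M l : ℕ), PInt R.O σ → M < l →
      R.v ((C (ρ ^ M)⁻¹ * σ.comp (C a + C ρ * X)).coeff l) < 1 := by
    intro σ M l hσ hl
    rw [coeff_aff, v_scale_high hρ hl.le, map_mul, map_pow]
    exact hhigh σ M l ρ hσ hρ1 hl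
  have hdeg' : ∀ (σ : K[X]) (M : ℕ), PInt R.O σ →
      (R.pP (C (ρ ^ M)⁻¹ * σ.comp (C a + C ρ * X))).natDegree ≤ M := fun σ M hσ =>
    natDegree_le_iff_coeff_eq_zero.2 fun l hl => by
      rw [R.coeff_pP]; exact R.p_eq_zero_of_lt (hhigh' σ M l hσ hl)
  have htop' : ∀ (σ : K[X]) (M : ℕ), PInt R.O σ →
      R.p ((C (ρ ^ M)⁻¹ * σ.comp (C a + C ρ * X)).coeff M) = R.p (σ.coeff M) := by
    intro σ M hσ
    rw [coeff_aff, v_scale_high hρ le_rfl, Nat.sub_self, pow_zero, mul_one, (tay σ hσ).2]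
  have hint' : ∀ j i, PInt R.O (F' j i) := by
    intro j i l
    rcases lt_trichotomy l (m j) with hl | hl | hl
    · rw [R.mem_iff, coeff_aff, v_scale_low hρ hl.le, map_mul, map_inv₀, map_pow]
      exact mul_inv_le_one_of_le₀ (hρle j i l hl) zero_le
    · rw [hl, coeff_aff, v_scale_high hρ le_rfl, Nat.sub_self, pow_zero, mul_one]
      exact (tay _ (hF.int j i)).1 _
    · exact R.mem_of_lt (hhigh' _ _ _ (hF.int j i) hl)
  have hsmall : ∀ w ∈ R.O, R.v (a + ρ * w) < 1 := fun w hw =>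
    Valuation.map_add_lt _ ha (by
      rw [map_mul]
      exact lt_of_le_of_lt (mul_le_of_le_one_right' (R.mem_iff.1 hw)) hρ1)
  have hCH : CH R m F' := by
    refine ⟨hint', fun j i => hdeg' _ _ (hF.int j i),
      fun j => ⟨i1 j, by rw [htop' _ _ (hF.int j _)]; exact hi1 j⟩, fun y hy j => ?_⟩
    obtain ⟨i, hi⟩ := hF.cop _ (hsmall y hy) j
    exact ⟨i, by rw [eval_aff]; exact mul_ne_zero (inv_ne_zero (pow_ne_zero _ hρ)) hi⟩
  have hhole : ∀ (p : k) (μ : J → ℕ), (∀ j i, (X - C p) ^ μ j ∣ R.pP (F' j i)) →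
      ∑ j, μ j < ∑ j, m j := by
    intro p μ hμ
    have hne : ∀ j, R.pP (F' j (i1 j)) ≠ 0 := fun j h0 => hi1 j (by
      rw [← htop' _ _ (hF.int j _), ← R.coeff_pP, show R.pP _ = 0 from h0, coeff_zero])
    have hle : ∀ j, μ j ≤ m j := fun j => by
      have := natDegree_le_of_dvd (hμ j (i1 j)) (hne j)
      rw [(monic_X_sub_C p).natDegree_pow, natDegree_X_sub_C, mul_one] at this
      exact this.trans (hCH.deg j _)
    refine Finset.sum_lt_sum (fun j _ => hle j) ?_
    by_contra hc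
    push Not at hc
    have heq : ∀ j, μ j = m j := fun j => le_antisymm (hle j) (hc j (Finset.mem_univ j))
    have hform : ∀ j i, ∃ c, R.pP (F' j i) = (X - C p) ^ m j * C c := by
      intro j i
      obtain ⟨q, hq⟩ := hμ j i
      rw [heq] at hq
      refine ⟨q.coeff 0, ?_⟩
      rw [← eq_C_of_natDegree_le_zero, hq]
      by_cases h0 : q = 0
      · rw [h0, natDegree_zero]
      · have := hCH.deg j i
        rw [hq, natDegree_mul (pow_ne_zero _ (X_sub_C_ne_zero p)) h0,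
          (monic_X_sub_C p).natDegree_pow, natDegree_X_sub_C] at this
        omega
    have hp0 : p = 0 := by
      obtain ⟨c, hc⟩ := hform j0 (i1 j0)
      have h1 := ((hint' j0 (i1 j0)).eval R.O.zero_mem).2
      rw [eval_aff, mul_zero, add_zero, hra, mul_zero, R.p_zero, hc] at h1
      simp only [eval_mul, eval_pow, eval_sub, eval_X, eval_C, zero_sub] at h1
      rcases mul_eq_zero.1 h1.symm with h2 | h2
      · exact neg_eq_zero.1 (pow_eq_zero_iff hj0.ne' |>.1 h2)
      · exact absurd (by rw [hc, h2, C_0, mul_zero]) (hne j0)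
    obtain ⟨c, hc⟩ := hform j2 i2
    have h1 := R.coeff_pP (F' j2 i2) l2
    rw [hc, hp0, C_0, sub_zero, coeff_X_pow_mul', if_neg (by omega), coeff_aff,
      v_scale_low hρ hl2.le, hρeq, mul_inv_cancel₀ (pow_ne_zero _ hρ), R.p_one] at h1
    exact zero_ne_one h1
  obtain ⟨A⟩ := hcs F' hCH hhole
  have hya : ∀ y, R.v y < 1 → R.v (y - a) < 1 := fun y hy => Valuation.map_sub_lt _ hy ha
  let sp : K → A.T.Pt := fun y =>
    if ρ⁻¹ * (y - a) ∈ R.O then A.sp (ρ⁻¹ * (y - a)) else (A.T.root, none)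
  let nrm : K → J → K := fun y j =>
    if ρ⁻¹ * (y - a) ∈ R.O then A.nrm (ρ⁻¹ * (y - a)) j * (ρ ^ m j)⁻¹ else ((y - a) ^ m j)⁻¹
  have hback : ∀ y, a + ρ * (ρ⁻¹ * (y - a)) = y := fun y => by field_simp; ring
  have hfwd : ∀ w, ρ⁻¹ * (a + ρ * w - a) = w := fun w => by field_simp; ring
  refine ⟨{
    S := A.T
    ok := A.ok
    deg := A.deg
    top := fun j i => by rw [A.top, htop' _ _ (hF.int j i)]
    sp := sp
    nrm := nrm
    ν := fun kk σ => A.ν kk (C (ρ ^ dot kk m)⁻¹ * σ.comp (C a + C ρ * X))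
    ev := ?_
    surj := ?_
    ν_mul := ?_
    ν_low := ?_
    sec := ?_
    chart := ?_ }⟩
  · intro y hy j i
    by_cases hc : ρ⁻¹ * (y - a) ∈ R.O
    · have := A.ev _ hc j i
      rw [eval_aff, hback, ← mul_assoc] at this
      simpa only [sp, nrm, if_pos hc] using this
    · have := outer hρ (hint' j i) hc fun l hl => hhigh _ _ _ _ (hF.int j i) (hya y hy) hl
      rw [← A.top] at this
      simpa only [sp, nrm, if_neg hc] using this
  · intro pt
    rcases A.surj pt with rfl | ⟨w, hw, hs⟩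
    · obtain ⟨s, hs⟩ := IsAlgClosed.exists_pow_nat_eq ρ (n := 2) two_pos
      have hs1 : R.v s < 1 := by
        by_contra hc
        rw [← hs, map_pow] at hρ1
        exact absurd hρ1 (not_lt.2 (one_le_pow₀ (not_lt.1 hc)))
      have hs0 : s ≠ 0 := by rintro rfl; exact hρ (by rw [← hs]; simp)
      have hc : ¬ ρ⁻¹ * (a + s - a) ∈ R.O := by
        rw [add_sub_cancel_left, ← hs, show (s ^ 2)⁻¹ * s = s⁻¹ by field_simp, R.mem_iff,
          map_inv₀, not_le]
        exact (one_lt_inv₀ (by simpa [zero_lt_iff] using hs0)).2 hs1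
      refine ⟨a + s, Valuation.map_add_lt _ ha hs1, ?_⟩
      simp only [sp, if_neg hc]
      exact Same.refl _ _
    · refine ⟨a + ρ * w, hsmall w hw, ?_⟩
      simp only [sp, hfwd, if_pos hw]
      exact hs
  · intro kk c σ
    rw [← A.ν_mul]
    congr 1
    simp only [mul_comp, C_comp]; ring
  · intro kk σ hν hσ l hl
    have hI := R.mem_iff.1 (R.gn_le_one_iff.1 ((A.ν_gn kk _).trans hν) l)
    rw [coeff_aff, v_scale_low hρ hl.le, map_mul, map_inv₀, map_pow,
      mul_inv_le_iff₀ (pow_pos (zero_lt_iff.2 hvρ) _), one_mul] at hI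
    rw [← R.p_eq_zero_iff (hσ l), ← (tay σ hσ).2]
    exact R.p_eq_zero_of_lt (hI.trans_lt (pow_lt_one₀ zero_le hρ1 (by omega)))
  · intro kk σ hν hσ
    have hI := R.gn_le_one_iff.1 ((A.ν_gn kk _).trans hν)
    obtain ⟨s, hs, hr, hv, hz⟩ := A.sec kk _ hν (hdeg' σ _ hσ)
    refine ⟨s, hs, by rw [hr, htop' _ _ hσ], fun y hy => ?_, hz⟩
    by_cases hc : ρ⁻¹ * (y - a) ∈ R.O
    · have := hv _ hc
      have e : lam A.nrm kk (C (ρ ^ dot kk m)⁻¹ * σ.comp (C a + C ρ * X)) (ρ⁻¹ * (y - a)) =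
          lam nrm kk σ y := by
        simp only [lam, nrm, if_pos hc, eval_aff, hback, mul_pow, Finset.prod_mul_distrib,
          prod_pow_inv, mul_assoc]
      rw [e] at this
      simpa only [sp, if_pos hc] using this
    · have := outer hρ hI hc fun l hl => hhigh _ _ _ _ hσ (hya y hy) hl
      rw [← hr] at this
      simpa only [sp, lam, nrm, if_neg hc, prod_pow_inv] using this
  · intro b
    refine Chart.transport (F' := F') (x0 := a) (ρ0 := ρ) (e := fun j => (ρ ^ m j)⁻¹)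
      (fun j i => rfl) hρ rfl rfl (fun w hw z hz => ⟨hsmall w hw, ?_⟩) (A.chart b)
    have hw' : w ∈ R.O := hw
    simp only [sp, hfwd, if_pos hw', hz]

theorem op_all [IsAlgClosed K] [IsAlgClosed k] [∀ j, Finite (io j)] (n : ℕ) :
    ∀ (m : J → ℕ) (F : (j : J) → io j → K[X]), ∑ j, m j = n → 0 < n → OH R m F →
      Nonempty (Op R m F) := by
  induction n using Nat.strong_induction_on with
  | _ n ih =>
  intro m F hn h0 hF
  refine op_of_cs hF (hn ▸ h0) fun F' hF' hh => cs_of_op hF' hh fun μ F'' h1 h2 h3 => ?_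
  exact ih _ (hn ▸ h2) μ F'' rfl h1 h3

theorem cs_all [IsAlgClosed K] [IsAlgClosed k] [∀ j, Finite (io j)] {m : J → ℕ}
    {F : (j : J) → io j → K[X]} (hF : CH R m F) : Nonempty (Cs R m F) := by
  refine cs_of_op hF (M := ∑ j, m j + 1) (fun p μ hμ => ?_)
    fun μ F' h1 _ h3 => op_all _ μ F' rfl h1 h3
  refine Nat.lt_succ_of_le (Finset.sum_le_sum fun j _ => ?_)
  obtain ⟨i, hi⟩ := hF.top j
  have := natDegree_le_of_dvd (hμ j i) fun h0 => hi (by rw [← R.coeff_pP, h0, coeff_zero])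
  rw [(monic_X_sub_C p).natDegree_pow, natDegree_X_sub_C, mul_one] at this
  exact this.trans (hF.deg j _)

/-- **Existence of the reduction tree**, with the exact description of the holes. -/
theorem exists_red' [IsAlgClosed K] [IsAlgClosed k] [∀ j, Finite (io j)] (R : Rd K k)
    {d : J → ℕ} {F : (j : J) → io j → K[X]} (hF : Cop d F) :
    ∃ A : Red R d F, ∀ a, Chart R F A.T (fun y => A.sp (some y)) Set.univ a := by
  classical
  -- normalise the values at infinity
  have hc : ∀ j, ∃ c : K, (∀ i, c * (F j i).coeff (d j) ∈ R.O) ∧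
      ∃ i, c * (F j i).coeff (d j) = 1 := by
    intro j
    obtain ⟨i1, hi1⟩ := hF.2 j none
    have : Nonempty (io j) := ⟨i1⟩
    obtain ⟨i0, hi0⟩ := Finite.exists_max fun i => R.v ((F j i).coeff (d j))
    have h0 : (F j i0).coeff (d j) ≠ 0 := fun h0 => hi1 (by
      have := hi0 i1
      rwa [h0, map_zero, le_zero_iff, map_eq_zero] at this)
    refine ⟨((F j i0).coeff (d j))⁻¹, fun i => ?_, i0, inv_mul_cancel₀ h0⟩
    rw [R.mem_iff, map_mul, map_inv₀]
    exact inv_mul_le_one_of_le₀ (hi0 i) zero_le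
  choose c hcO i1 hi1 using hc
  have hc0 : ∀ j, c j ≠ 0 := fun j h0 => by
    have := hi1 j
    rw [h0, zero_mul] at this
    exact zero_ne_one this
  -- a large disc
  have hρ : ∃ ρ : K, ρ ≠ 0 ∧ ∀ j i l, l < d j →
      R.v (c j * (F j i).coeff l) ≤ R.v ρ ^ (d j - l) := by
    by_cases hd : ∃ j, 0 < d j
    · obtain ⟨j0, hj0⟩ := hd
      obtain ⟨ρ, h1, -⟩ := exists_radius R d (fun j i l => c j * (F j i).coeff l) j0 (i1 j0) hj0
      refine ⟨ρ, ?_, h1⟩
      rintro rfl
      obtain ⟨i, hi⟩ := hF.2 j0 (some 0)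
      have := h1 j0 i 0 hj0
      rw [map_zero, zero_pow (by omega), le_zero_iff, map_eq_zero, coeff_zero_eq_eval_zero]
        at this
      exact hi ((mul_eq_zero.1 this).resolve_left (hc0 j0))
    · exact ⟨1, one_ne_zero, fun j i l hl => absurd ⟨j, by omega⟩ hd⟩
  obtain ⟨ρ, hρ, hρle⟩ := hρ
  have tay : ∀ σ : K[X], σ.comp (C 0 + C 1 * X) = σ := fun σ => by simp
  set F' : (j : J) → io j → K[X] := fun j i =>
    C (ρ ^ d j)⁻¹ * (C (c j) * F j i).comp (C 0 + C ρ * X) with hF'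
  have hhigh : ∀ (σ : K[X]) (M l : ℕ), σ.natDegree ≤ M → M < l →
      (C (ρ ^ M)⁻¹ * σ.comp (C 0 + C ρ * X)).coeff l = 0 := by
    intro σ M l hσ hl
    rw [coeff_aff, tay, coeff_eq_zero_of_natDegree_lt (hσ.trans_lt hl), zero_mul, mul_zero]
  have hdeg' : ∀ (σ : K[X]) (M : ℕ), σ.natDegree ≤ M →
      (R.pP (C (ρ ^ M)⁻¹ * σ.comp (C 0 + C ρ * X))).natDegree ≤ M := fun σ M hσ =>
    natDegree_le_iff_coeff_eq_zero.2 fun l hl => by
      rw [R.coeff_pP, hhigh σ M l hσ hl, R.p_zero]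
  have htop' : ∀ (σ : K[X]) (M : ℕ),
      (C (ρ ^ M)⁻¹ * σ.comp (C 0 + C ρ * X)).coeff M = σ.coeff M := by
    intro σ M
    rw [coeff_aff, v_scale_high hρ le_rfl, Nat.sub_self, pow_zero, mul_one, tay]
  have hcd : ∀ j i, (C (c j) * F j i).natDegree ≤ d j := fun j i =>
    (natDegree_C_mul_le _ _).trans (hF.1 j i)
  have hint' : ∀ j i, PInt R.O (F' j i) := by
    intro j i l
    rcases lt_trichotomy l (d j) with hl | hl | hl
    · rw [R.mem_iff, coeff_aff, v_scale_low hρ hl.le, map_mul, map_inv₀, map_pow, tay,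
        coeff_C_mul]
      exact mul_inv_le_one_of_le₀ (hρle j i l hl) zero_le
    · rw [hl, htop', coeff_C_mul]; exact hcO j i
    · rw [hhigh _ _ _ (hcd j i) hl]; exact R.O.zero_mem
  have hCH : CH R d F' := by
    refine ⟨hint', fun j i => hdeg' _ _ (hcd j i), fun j => ⟨i1 j, ?_⟩, fun y hy j => ?_⟩
    · rw [htop', coeff_C_mul, hi1, R.p_one]; exact one_ne_zero
    · obtain ⟨i, hi⟩ := hF.2 j (some (0 + ρ * y))
      refine ⟨i, ?_⟩
      rw [eval_aff, eval_mul, eval_C]
      exact mul_ne_zero (inv_ne_zero (pow_ne_zero _ hρ)) (mul_ne_zero (hc0 j) hi)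
  obtain ⟨A⟩ := cs_all hCH
  let sp : Option K → A.T.Pt := fun y => match y with
    | none => (A.T.root, none)
    | some y => if ρ⁻¹ * (y - 0) ∈ R.O then A.sp (ρ⁻¹ * (y - 0)) else (A.T.root, none)
  let nrm : Option K → J → K := fun y j => match y with
    | none => c j
    | some y => (if ρ⁻¹ * (y - 0) ∈ R.O then A.nrm (ρ⁻¹ * (y - 0)) j * (ρ ^ d j)⁻¹
        else ((y - 0) ^ d j)⁻¹) * c j
  have hback : ∀ y, 0 + ρ * (ρ⁻¹ * (y - 0)) = y := fun y => by field_simp; ring
  have hfwd : ∀ w, ρ⁻¹ * (0 + ρ * w - 0) = w := fun w => by field_simp; ring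
  have hout : ∀ (σ : K[X]) (M : ℕ) (y : K), σ.natDegree ≤ M → ∀ l, M < l →
      R.v ((σ.comp (C 0 + C 1 * X)).coeff l) * R.v (y - 0) ^ (l - M) < 1 := by
    intro σ M y hσ l hl
    rw [tay, coeff_eq_zero_of_natDegree_lt (hσ.trans_lt hl), map_zero, zero_mul]
    exact zero_lt_one
  have hev : ∀ y j i, nrm y j * hv (d j) (F j i) y ∈ R.O ∧
      R.p (nrm y j * hv (d j) (F j i) y) = A.T.ev (sp y) j i := by
    rintro (_ | y) j i
    · refine ⟨hcO j i, ?_⟩
      rw [show sp none = (A.T.root, none) from rfl, A.top, htop', coeff_C_mul]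
      rfl
    · by_cases hc : ρ⁻¹ * (y - 0) ∈ R.O
      · have := A.ev _ hc j i
        rw [eval_aff, hback, eval_mul, eval_C, ← mul_assoc, ← mul_assoc] at this
        simpa only [sp, nrm, if_pos hc, hv_some] using this
      · have := outer hρ (hint' j i) hc (hout _ _ y (hcd j i))
        rw [← A.top, eval_mul, eval_C, ← mul_assoc] at this
        simpa only [sp, nrm, if_neg hc, hv_some] using this
  have hch : ∀ b, Chart R F A.T (fun y => sp (some y)) Set.univ b := fun b =>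
    Chart.transport (T := A.T) (F := F) (F' := F')
      (sp := fun y => sp (some y)) (A := Set.univ) (a := b) (x0 := 0) (ρ0 := ρ)
      (e := fun j => (ρ ^ d j)⁻¹ * c j)
      (fun j i => by simp only [hF', mul_comp, C_comp, C_mul, mul_assoc]) hρ rfl rfl
      (fun w hw z hz => ⟨trivial, by
        have hw' : w ∈ R.O := hw
        simp only [sp, hfwd, if_pos hw', hz]⟩) (A.chart b)
  refine ⟨{
    T := A.T
    ok := A.ok
    deg := A.deg
    sp := sp
    nrm := nrm
    sp_none := rfl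
    nrm_mem := fun y j i => (hev y j i).1
    ev_sp := fun y j i => (hev y j i).2
    surj := fun pt => ?_
    sec := ?_
    chart := fun b => ?_ }, hch⟩
  · rcases A.surj pt with rfl | ⟨w, hw, hs⟩
    · exact ⟨none, Same.refl _ _⟩
    · refine ⟨some (0 + ρ * w), ?_⟩
      simp only [sp, hfwd, if_pos hw]
      exact hs
  · intro kk σ hσ hσ0
    have hE : (∏ j, c j ^ kk j) ≠ 0 := Finset.prod_ne_zero_iff.2 fun j _ => pow_ne_zero _ (hc0 j)
    set τ : K[X] := C (ρ ^ dot kk d)⁻¹ * (C (∏ j, c j ^ kk j) * σ).comp (C 0 + C ρ * X) with hτ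
    have hτ0 : A.ν kk τ ≠ 0 := by
      intro h0
      have h1 : τ = 0 := R.gn_eq_zero (le_zero_iff.1 (h0 ▸ A.ν_gn kk τ))
      apply hσ0
      ext l
      have h2 := coeff_aff (C (∏ j, c j ^ kk j) * σ) (ρ ^ dot kk d)⁻¹ 0 ρ l
      rw [← hτ, h1, coeff_zero, tay, coeff_C_mul] at h2
      simpa [hρ, hE] using h2
    obtain ⟨e, he0, he⟩ := R.exists_scale hτ0
    set σ' : K[X] := C e * (C (∏ j, c j ^ kk j) * σ) with hσ'
    have hσ'd : σ'.natDegree ≤ dot kk d :=
      (natDegree_C_mul_le _ _).trans ((natDegree_C_mul_le _ _).trans hσ)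
    have hν : A.ν kk (C (ρ ^ dot kk d)⁻¹ * σ'.comp (C 0 + C ρ * X)) = 1 := by
      rw [← he, ← A.ν_mul]
      congr 1
      simp only [hσ', hτ, mul_comp, C_comp]; ring
    have hI := R.gn_le_one_iff.1 ((A.ν_gn kk _).trans hν.le)
    obtain ⟨s, hs, hr, hvv, hz⟩ := A.sec kk _ hν.le (hdeg' σ' _ hσ'd)
    refine ⟨e, he0, s, hs, fun h0 => absurd (hz h0) (by rw [hν]; exact lt_irrefl _), ?_⟩
    rintro (_ | y)
    · have h1 := hI (dot kk d)
      rw [htop', hσ', coeff_C_mul, coeff_C_mul, ← mul_assoc] at h1 hr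
      exact ⟨h1, hr.symm⟩
    · by_cases hc : ρ⁻¹ * (y - 0) ∈ R.O
      · have := hvv _ hc
        have e1 : lam A.nrm kk (C (ρ ^ dot kk d)⁻¹ * σ'.comp (C 0 + C ρ * X)) (ρ⁻¹ * (y - 0)) =
            e * (∏ j, nrm (some y) j ^ kk j) * hv (dot kk d) σ (some y) := by
          rw [lam, eval_aff, hback]
          simp only [nrm, if_pos hc, mul_pow, Finset.prod_mul_distrib,
            prod_pow_inv, hσ', eval_mul, eval_C, hv_some]
          ring
        rw [e1] at this
        simpa only [sp, if_pos hc] using this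
      · have := outer hρ hI hc (hout _ _ y hσ'd)
        have e1 : ((y - 0) ^ dot kk d)⁻¹ * σ'.eval y =
            e * (∏ j, nrm (some y) j ^ kk j) * hv (dot kk d) σ (some y) := by
          simp only [nrm, if_neg hc, mul_pow, Finset.prod_mul_distrib,
            prod_pow_inv, hσ', eval_mul, eval_C, hv_some]
          ring
        rw [← hr, e1] at this
        simpa only [sp, if_neg hc] using this
  · obtain ⟨x, ρ', c', h', h1, h2, h3, h4, h5⟩ := hch b
    exact ⟨x, ρ', c', h', h1, h2, h3, fun j z hz => (h4 z).2 ⟨j, hz⟩,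
      fun u hu hu' => (h5 u hu hu').2⟩

/-- **Existence of the reduction tree.** -/
theorem exists_red [IsAlgClosed K] [IsAlgClosed k] [∀ j, Finite (io j)] (R : Rd K k)
    {d : J → ℕ} {F : (j : J) → io j → K[X]} (hF : Cop d F) : Nonempty (Red R d F) :=
  (exists_red' R hF).nonempty

theorem exStmt : ExStmt := fun _ _ _ _ _ _ R _ _ _ _ _ _ hF => exists_red R hF

end Crest.Agent.X262.Bub96
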