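import Crest.Agent.X262.Bub96.ExB

/-! # Norming sets: the criterion on the reduction tree -/

set_option autoImplicit false
set_option linter.unusedSectionVars false

namespace Crest.Agent.X262.Bub96

open Polynomial Tr

variable {K : Type*} [Field K] {k : Type*} [Field k] {J : Type*} [Fintype J] {io : J → Type*}

namespace Tr

theorem val_const {kk : J → ℕ} : {T : Tr k J io} → {s : T.Vx → k[X]} → T.IsSec kk s →
    (∀ a, s a = 0 ∨ dot kk (T.vd a) = 0) → ∀ x y, val kk T s x = val kk T s y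
  | leaf d g, s, hs, h, x, y => by
    have hs' : (s ()).natDegree ≤ dot kk d := hs
    show hv (dot kk d) (s ()) x.2 = hv (dot kk d) (s ()) y.2
    rcases h () with h0 | h0
    · rw [h0, hv_zero, hv_zero]
    · have h0' : dot kk d = 0 := h0
      rw [h0'] at hs' ⊢
      rw [eq_C_of_natDegree_le_zero hs']
      rcases x.2 with _ | _ <;> rcases y.2 with _ | _ <;> simp
  | glue T p S, s, hs, h, x, y => by
    have h1 := val_const hs.1 fun a => h (Sum.inl a)
    have h2 := val_const hs.2.1 fun a => h (Sum.inr a)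
    have key : ∀ x, val kk (glue T p S) s x =
        val kk T (fun a => s (Sum.inl a)) (T.root, some p) := by
      rintro ⟨a | a, u⟩
      · exact h1 (a, u) _
      · exact (h2 (a, u) _).trans hs.2.2
    rw [key, key]

theorem eq_zero_of_val [Infinite k] {kk : J → ℕ} {T : Tr k J io} {s : T.Vx → k[X]}
    (h : ∀ x, val kk T s x = 0) : s = 0 :=
  _root_.funext fun a => Polynomial.funext fun z => (h (a, some z)).trans (eval_zero).symm

/-- the norming criterion without holes. -/
theorem norming_of_pts [Infinite k] {kk : J → ℕ} {T : Tr k J io} {Y : Set T.Pt}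
    (hY : Y.Nonempty) (h : ∀ a, dot kk (T.vd a) = 0 ∨ ∃ D : Finset k, dot kk (T.vd a) < D.card ∧
      ∀ x ∈ D, (a, some x) ∈ Y) : T.Norming kk Y := by
  intro s hs h0
  obtain ⟨y, hy⟩ := hY
  refine eq_zero_of_val (kk := kk) fun x => (val_const hs (fun a => ?_) x y).trans (h0 y hy)
  rcases h a with h1 | ⟨D, hc, hD⟩
  · exact Or.inr h1
  · exact Or.inl (eq_zero_of_natDegree_lt_card_of_eval_eq_zero' (s a) D
      (fun x hx => h0 _ (hD x hx)) ((hs.natDegree_le a).trans_lt hc))

end Tr

/-- the residue field of a valuation ring of an algebraically closed field. -/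
theorem Rd.isAlgClosed [IsAlgClosed K] (R : Rd K k) : IsAlgClosed k := by
  refine IsAlgClosed.of_exists_root k fun q hq hirr => ?_
  obtain ⟨P, hP, hd, hm⟩ := lifts_and_natDegree_eq_and_monic
    ((mem_lifts q).2 (map_surjective R.red R.surj q)) hq
  obtain ⟨r, hr⟩ := IsAlgClosed.exists_root (P.map (algebraMap R.O K)) (by
    rw [hm.degree_map, degree_eq_natDegree hm.ne_zero, hd]
    exact_mod_cast hirr.natDegree_pos.ne')
  obtain ⟨x, rfl⟩ := IsIntegrallyClosed.isIntegral_iff (R := R.O) (K := K).1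
    ⟨P, hm, by rwa [IsRoot, eval_map] at hr⟩
  refine ⟨R.red x, ?_⟩
  rw [IsRoot, eval_map_algebraMap, aeval_algebraMap_apply, map_eq_zero_iff _
    Subtype.val_injective, coe_aeval_eq_eval] at hr
  rw [← hP, eval_map, eval₂_hom, hr, map_zero]

theorem Rd.p_natCast (R : Rd K k) (n : ℕ) : (n : K) ∈ R.O ∧ R.p (n : K) = n := by
  refine ⟨natCast_mem _ n, ?_⟩
  rw [R.p_of_mem (natCast_mem _ n), ← map_natCast R.red n]
  rfl

variable [∀ j, Fintype (io j)]

/-- exponents of the Vandermonde forms. -/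
noncomputable def ex (io : J → Type*) [∀ j, Fintype (io j)] (j : J) (i : io j) : ℕ :=
  Fintype.equivFin (io j) i

/-- the Vandermonde linear forms applied to the map. -/
noncomputable def lf {S : Type*} [CommRing S] (F : (j : J) → io j → S[X]) (j : J) (c : ℕ) : S[X] :=
  ∑ i, C ((c : S) ^ ex io j i) * F j i

omit [Fintype J] in
theorem card_bad [CharZero k] [DecidableEq k] {j : J} {y : io j → k} (hy : ∃ i, y i ≠ 0) (B : ℕ) :
    ((Finset.range B).filter fun c : ℕ => ∑ i, (c : k) ^ ex io j i * y i = 0).card ≤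
      Fintype.card (io j) := by
  classical
  obtain ⟨i0, hi0⟩ := hy
  set P : k[X] := ∑ i, monomial (ex io j i) (y i) with hP
  have hP0 : P ≠ 0 := fun h0 => hi0 (by
    have := congrArg (coeff · (ex io j i0)) h0
    simp only [hP, finsetSum_coeff, coeff_monomial, coeff_zero] at this
    rwa [Finset.sum_eq_single i0 (fun i _ hi => if_neg fun h : ex io j i = ex io j i0 => hi
      ((Fintype.equivFin (io j)).injective (Fin.ext h))) (by simp), if_pos rfl] at this)
  have hd : P.natDegree ≤ Fintype.card (io j) :=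
    natDegree_sum_le_of_forall_le _ _ fun i _ =>
      (natDegree_monomial_le _).trans (Fintype.equivFin (io j) i).2.le
  refine le_trans ?_ ((Multiset.toFinset_card_le _).trans ((card_roots' P).trans hd))
  refine Finset.card_le_card_of_injOn (fun c : ℕ => (c : k)) (fun c hc => ?_)
    Nat.cast_injective.injOn
  have h1 := (Finset.mem_filter.1 hc).2
  rw [Finset.mem_coe, Multiset.mem_toFinset, mem_roots hP0, IsRoot.def, hP, eval_finsetSum, ← h1]
  exact Finset.sum_congr rfl fun i _ => by rw [eval_monomial, mul_comm]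

/-- the number of forms that is needed. -/
def nb (io : J → Type*) [∀ j, Fintype (io j)] (d : J → ℕ) (N : ℕ) : ℕ :=
  (1 + (N + 1) * ∑ j, d j) * (∑ j, Fintype.card (io j)) + 1

/-- roots of enough Vandermonde forms specialise to a norming set. -/
theorem norming_roots [IsAlgClosed K] [IsAlgClosed k] [CharZero k] {R : Rd K k} {d : J → ℕ}
    {F : (j : J) → io j → K[X]} (hF : Cop d F) (A : Red R d F)
    (hA : ∀ a, Chart R F A.T (fun y => A.sp (some y)) Set.univ a) {N : ℕ} {Y : Set (Option K)}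
    (hY : Y.Nonempty)
    (hr : ∀ j c, c < nb io d N → lf F j c ≠ 0 → ∀ y, (lf F j c).eval y = 0 → some y ∈ Y)
    {kk : J → ℕ} (hk : ∀ j, kk j ≤ N) : A.T.Norming kk (A.sp '' Y) := by
  classical
  refine norming_of_pts (hY.image _) fun a => ?_
  by_cases h0 : ∀ j, A.T.vd a j = 0
  · left; simp [dot, h0]
  right
  push Not at h0
  obtain ⟨j, hj⟩ := h0
  obtain ⟨x, ρ, e, h, hρ, hh, hP, hho, hsp⟩ := hA a
  let H : Finset k := (∏ j, h j).roots.toFinset
  have hH0 : (∏ j, h j) ≠ 0 := Finset.prod_ne_zero_iff.2 fun j _ => hh j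
  have hH : ∀ z, z ∈ A.T.hole a → z ∈ H := fun z hz => by
    simpa only [H, Multiset.mem_toFinset, mem_roots hH0, IsRoot.def, eval_prod,
      Finset.prod_eq_zero_iff, Finset.mem_univ, true_and] using (hho z).1 hz
  have hHc : H.card ≤ ∑ j, d j := by
    refine (Multiset.toFinset_card_le _).trans ((card_roots' _).trans ?_)
    refine (natDegree_prod_le _ _).trans (Finset.sum_le_sum fun j _ => ?_)
    obtain ⟨i, hi⟩ := A.ok.ev_ne (a, none) j
    have hg : A.T.vg a j i ≠ 0 := fun h0 => hi (by simp only [Tr.ev, h0, hv_zero])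
    have h1 : (h j * A.T.vg a j i).natDegree ≤ d j := by
      rw [← (hP j i).2, natDegree_le_iff_coeff_eq_zero]
      intro l hl
      rw [R.coeff_pP, coeff_eq_zero_of_natDegree_lt, R.p_zero]
      refine lt_of_le_of_lt ((natDegree_C_mul_le _ _).trans (natDegree_comp_le.trans ?_)) hl
      refine (Nat.mul_le_mul (hF.1 j i) ?_).trans (mul_one _).le
      compute_degree
    rw [natDegree_mul (hh j) hg] at h1
    omega
  have step : ∀ D : Finset k, D.card ≤ N * ∑ j, d j →
      ∃ z, z ∉ D ∧ (a, some z) ∈ A.sp '' Y := by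
    intro D hD
    let Bd : Finset (Option k) := insert none ((D ∪ H).image some)
    have hBd : Bd.card ≤ 1 + (N + 1) * ∑ j, d j := by
      refine (Finset.card_insert_le _ _).trans ?_
      have := (Finset.card_image_le (s := D ∪ H) (f := some)).trans (Finset.card_union_le D H)
      rw [add_mul]
      omega
    let bad : Option k → Finset ℕ := fun b => (Finset.range (nb io d N)).filter
      fun c : ℕ => ∑ i, (c : k) ^ ex io j i * A.T.ev (a, b) j i = 0
    have hlt : (Bd.biUnion bad).card < (Finset.range (nb io d N)).card := by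
      rw [Finset.card_range]
      refine Nat.lt_succ_of_le ((Finset.card_biUnion_le_card_mul _ _ _ fun b _ =>
        card_bad (A.ok.ev_ne (a, b) j) _).trans (Nat.mul_le_mul hBd ?_))
      exact Finset.single_le_sum (f := fun j => Fintype.card (io j)) (fun _ _ => Nat.zero_le _)
        (Finset.mem_univ j)
    obtain ⟨c, hc, hc'⟩ := Finset.exists_mem_notMem_of_card_lt_card hlt
    set G : k[X] := lf (A.T.vg a) j c with hG
    have hGv : ∀ b ∈ Bd, hv (A.T.vd a j) G b ≠ 0 := fun b hb h0 =>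
      hc' (Finset.mem_biUnion.2 ⟨b, hb, Finset.mem_filter.2 ⟨hc, by
        rw [← h0, hG, lf, hv_sum]
        exact Finset.sum_congr rfl fun i _ => (hv_C_mul _ _ _ _).symm⟩⟩)
    have hG1 : G.coeff (A.T.vd a j) ≠ 0 := hGv none (Finset.mem_insert_self _ _)
    have hG0 : G ≠ 0 := fun h0 => hG1 (by rw [h0, coeff_zero])
    obtain ⟨z, hz⟩ := IsAlgClosed.exists_root G (natDegree_pos_iff_degree_pos.1
      (lt_of_lt_of_le (Nat.pos_of_ne_zero hj) (le_natDegree_of_ne_zero hG1))).ne'
    have hzB : z ∉ D ∪ H := fun hm =>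
      hGv (some z) (Finset.mem_insert_of_mem (Finset.mem_image_of_mem _ hm)) hz
    have hQ : C (e j) * (lf F j c).comp (C x + C ρ * X) =
        ∑ i, C ((c : K) ^ ex io j i) * (C (e j) * (F j i).comp (C x + C ρ * X)) := by
      rw [lf, Polynomial.sum_comp, Finset.mul_sum]
      exact Finset.sum_congr rfl fun i _ => by rw [mul_comp, C_comp, mul_left_comm]
    have hc1 : ∀ i, (c : K) ^ ex io j i ∈ R.O := fun i => pow_mem (R.p_natCast c).1 _
    obtain ⟨hI, eI⟩ := Rd.pInt_sum (R := R) Finset.univ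
      (fun i => C ((c : K) ^ ex io j i) * (C (e j) * (F j i).comp (C x + C ρ * X)))
      fun i _ => ((Rd.pInt_C (hc1 i)).1.mul (hP j i).1).1
    rw [← hQ] at hI eI
    have eI' : R.pP (C (e j) * (lf F j c).comp (C x + C ρ * X)) = h j * G := by
      rw [eI, hG, lf, Finset.mul_sum]
      refine Finset.sum_congr rfl fun i _ => ?_
      rw [((Rd.pInt_C (hc1 i)).1.mul (hP j i).1).2, (Rd.pInt_C (hc1 i)).2, (hP j i).2,
        R.p_pow (R.p_natCast c).1, (R.p_natCast c).2, mul_left_comm]
    have hne : R.pP (C (e j) * (lf F j c).comp (C x + C ρ * X)) ≠ 0 :=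
      eI' ▸ mul_ne_zero (hh j) hG0
    have hz0 : R.pP (0 : K[X]) = 0 := by ext l; rw [R.coeff_pP, coeff_zero, R.p_zero, coeff_zero]
    obtain ⟨u, hu, huz, hu0⟩ := Rd.exists_root hI hne (z := z)
      (by rw [eI', IsRoot, eval_mul, show G.eval z = 0 from hz, mul_zero])
    rw [eval_aff] at hu0
    refine ⟨z, fun hm => hzB (Finset.mem_union_left _ hm), some (x + ρ * u),
      hr j c (Finset.mem_range.1 hc) (fun h0 => hne (by rw [h0, zero_comp, mul_zero, hz0])) _
        ((mul_eq_zero.1 hu0).resolve_left fun h0 => hne (by rw [h0, C_0, zero_mul, hz0])), ?_⟩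
    have := (hsp u hu fun hm => hzB (Finset.mem_union_right _ (huz ▸ hH _ hm))).2
    rwa [huz] at this
  have all : ∀ m, m ≤ N * ∑ j, d j + 1 →
      ∃ D : Finset k, D.card = m ∧ ∀ z ∈ D, (a, some z) ∈ A.sp '' Y := by
    intro m
    induction m with
    | zero => exact fun _ => ⟨∅, rfl, fun z hz => absurd hz (Finset.notMem_empty _)⟩
    | succ m ih =>
      intro hm
      obtain ⟨D, hD, hD'⟩ := ih (by omega)
      obtain ⟨z, hz, hz'⟩ := step D (by omega)
      refine ⟨insert z D, by rw [Finset.card_insert_of_notMem hz, hD], fun w hw => ?_⟩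
      rcases Finset.mem_insert.1 hw with rfl | hw
      · exact hz'
      · exact hD' w hw
  obtain ⟨D, hD, hD'⟩ := all _ le_rfl
  refine ⟨D, hD ▸ Nat.lt_succ_of_le ?_, hD'⟩
  rw [dot, Finset.mul_sum]
  exact Finset.sum_le_sum fun j _ => Nat.mul_le_mul (hk j)
    ((A.T.vd_le_deg a j).trans (congrFun A.deg j).le)

namespace Red

variable {R : Rd K k} {d : J → ℕ} {F : (j : J) → io j → K[X]} (A : Red R d F)

/-- the normalised value of a form of degree `kk · d`. -/
noncomputable def nv (kk : J → ℕ) (σ : K[X]) (y : Option K) : K :=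
  (∏ j, A.nrm y j ^ kk j) * hv (dot kk d) σ y

/-- points that specialise to a norming set bound the forms. -/
theorem bound {kk : J → ℕ} {Y : Set (Option K)} (hN : A.T.Norming kk (A.sp '' Y)) {σ : K[X]}
    (hσ : σ.natDegree ≤ dot kk d) (h : ∀ y ∈ Y, A.nv kk σ y ∈ R.O) (t : Option K) :
    A.nv kk σ t ∈ R.O := by
  by_cases h0 : σ = 0
  · rw [nv, h0, hv_zero, mul_zero]; exact R.O.zero_mem
  obtain ⟨e, he, s, hs, hs0, hv⟩ := A.sec kk σ hσ h0
  by_cases h1 : e⁻¹ ∈ R.O
  · have := R.O.mul_mem _ _ h1 (hv t).1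
    rwa [mul_assoc e, inv_mul_cancel_left₀ he] at this
  · refine absurd (hN s hs ?_) hs0
    rintro _ ⟨y, hy, rfl⟩
    have he1 : R.v e < 1 := by
      rw [R.mem_iff, map_inv₀, not_le] at h1
      exact (one_lt_inv₀ (zero_lt_iff.2 (by simpa using he))).1 h1
    rw [← (hv y).2, mul_assoc, ← nv, R.p_mul (R.mem_of_lt he1) (h y hy), R.p_eq_zero_of_lt he1,
      zero_mul]

/-- a bounded form reduces to a section. -/
theorem exists_sec [Infinite k] {kk : J → ℕ} {σ : K[X]} (hσ : σ.natDegree ≤ dot kk d)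
    (h : ∀ y, A.nv kk σ y ∈ R.O) :
    ∃ s, A.T.IsSec kk s ∧ ∀ y, R.p (A.nv kk σ y) = val kk A.T s (A.sp y) := by
  by_cases h0 : σ = 0
  · exact ⟨0, isSec_zero _ _, fun y => by rw [nv, h0, hv_zero, mul_zero, R.p_zero, val_zero]⟩
  obtain ⟨e, he, s, hs, hs0, hv⟩ := A.sec kk σ hσ h0
  have h1 : e⁻¹ ∈ R.O := by
    by_contra h1
    have he1 : R.v e < 1 := by
      rw [R.mem_iff, map_inv₀, not_le] at h1
      exact (one_lt_inv₀ (zero_lt_iff.2 (by simpa using he))).1 h1
    refine hs0 (eq_zero_of_val (kk := kk) fun x => ?_)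
    obtain ⟨y, hy⟩ := A.surj x
    rw [hy.2 kk s hs, ← (hv y).2, mul_assoc, ← nv, R.p_mul (R.mem_of_lt he1) (h y),
      R.p_eq_zero_of_lt he1, zero_mul]
  refine ⟨R.p e⁻¹ • s, hs.smul _, fun y => ?_⟩
  rw [val_smul, ← (hv y).2, ← R.p_mul h1 (hv y).1, mul_assoc e, inv_mul_cancel_left₀ he, nv]

end Red

end Crest.Agent.X262.Bub96
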