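import Crest.Agent.X262.Bub96.Defs

/-! # Reduction of elements and polynomials along a valuation ring -/

set_option autoImplicit false

namespace Crest.Agent.X262.Bub96

open Polynomial

namespace Rd

variable {K : Type*} [Field K] {k : Type*} [Field k] (R : Rd K k)

/-- the valuation. -/
noncomputable abbrev v : Valuation K R.O.ValueGroup := R.O.valuation

theorem mem_iff {x : K} : x ∈ R.O ↔ R.v x ≤ 1 := (R.O.valuation_le_one_iff x).symm

theorem mem_of_lt {x : K} (h : R.v x < 1) : x ∈ R.O := R.mem_iff.2 h.le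

theorem p_coe (x : R.O) : R.p x = R.red x := by
  unfold p; rw [dif_pos x.2]

theorem p_of_mem {x : K} (h : x ∈ R.O) : R.p x = R.red ⟨x, h⟩ := R.p_coe ⟨x, h⟩

theorem p_one : R.p 1 = 1 := by
  rw [R.p_of_mem R.O.one_mem]; exact map_one R.red

theorem p_add {x y : K} (hx : x ∈ R.O) (hy : y ∈ R.O) : R.p (x + y) = R.p x + R.p y := by
  rw [R.p_of_mem hx, R.p_of_mem hy, R.p_of_mem (R.O.add_mem _ _ hx hy), ← map_add]; rfl

theorem p_mul {x y : K} (hx : x ∈ R.O) (hy : y ∈ R.O) : R.p (x * y) = R.p x * R.p y := by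
  rw [R.p_of_mem hx, R.p_of_mem hy, R.p_of_mem (R.O.mul_mem _ _ hx hy), ← map_mul]; rfl

theorem p_neg {x : K} (hx : x ∈ R.O) : R.p (-x) = -R.p x := by
  rw [R.p_of_mem hx, R.p_of_mem (R.O.neg_mem _ hx), ← map_neg]; rfl

theorem p_sub {x y : K} (hx : x ∈ R.O) (hy : y ∈ R.O) : R.p (x - y) = R.p x - R.p y := by
  rw [sub_eq_add_neg, R.p_add hx (R.O.neg_mem _ hy), R.p_neg hy, sub_eq_add_neg]

theorem p_pow {x : K} (hx : x ∈ R.O) (n : ℕ) : R.p (x ^ n) = R.p x ^ n := by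
  induction n with
  | zero => simp [R.p_one]
  | succ n ih => rw [pow_succ, R.p_mul (pow_mem hx n) hx, ih, pow_succ]

theorem p_prod {ι : Type*} (s : Finset ι) (f : ι → K) (h : ∀ i ∈ s, f i ∈ R.O) :
    R.p (∏ i ∈ s, f i) = ∏ i ∈ s, R.p (f i) := by
  classical
  induction s using Finset.induction_on with
  | empty => simp [R.p_one]
  | insert a s ha ih =>
    rw [Finset.prod_insert ha, Finset.prod_insert ha,
      R.p_mul (h a (Finset.mem_insert_self _ _))
        (prod_mem fun i hi => h i (Finset.mem_insert_of_mem hi)),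
      ih fun i hi => h i (Finset.mem_insert_of_mem hi)]

theorem p_sum {ι : Type*} (s : Finset ι) (f : ι → K) (h : ∀ i ∈ s, f i ∈ R.O) :
    R.p (∑ i ∈ s, f i) = ∑ i ∈ s, R.p (f i) := by
  classical
  induction s using Finset.induction_on with
  | empty => simp [R.p_zero]
  | insert a s ha ih =>
    rw [Finset.sum_insert ha, Finset.sum_insert ha,
      R.p_add (h a (Finset.mem_insert_self _ _))
        (sum_mem fun i hi => h i (Finset.mem_insert_of_mem hi)),
      ih fun i hi => h i (Finset.mem_insert_of_mem hi)]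

theorem p_eq_zero_iff {x : K} (hx : x ∈ R.O) : R.p x = 0 ↔ R.v x < 1 := by
  rw [R.p_of_mem hx]; exact R.ker ⟨x, hx⟩

theorem p_eq_zero_of_lt {x : K} (h : R.v x < 1) : R.p x = 0 :=
  (R.p_eq_zero_iff (R.mem_of_lt h)).2 h

theorem v_eq_one {x : K} (hx : x ∈ R.O) (h : R.p x ≠ 0) : R.v x = 1 :=
  le_antisymm (R.mem_iff.1 hx) (not_lt.1 fun h' => h (R.p_eq_zero_of_lt h'))

theorem p_ne_zero {x : K} (h : R.v x = 1) : R.p x ≠ 0 := fun h' =>
  absurd ((R.p_eq_zero_iff (R.mem_iff.2 h.le)).1 h') (by rw [h]; exact lt_irrefl _)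

theorem p_congr {x y : K} (hx : x ∈ R.O) (h : R.v (y - x) < 1) : y ∈ R.O ∧ R.p y = R.p x := by
  have hd := R.mem_of_lt h
  have e : y = x + (y - x) := by ring
  refine ⟨by rw [e]; exact R.O.add_mem _ _ hx hd, ?_⟩
  rw [e, R.p_add hx hd, R.p_eq_zero_of_lt h, add_zero]

theorem v_sub_lt {x y : K} (hx : x ∈ R.O) (hy : y ∈ R.O) (h : R.p x = R.p y) :
    R.v (x - y) < 1 := by
  rw [← R.p_eq_zero_iff (sub_mem hx hy), R.p_sub hx hy, h, sub_self]

theorem exists_lift (z : k) : ∃ x ∈ R.O, R.p x = z := by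
  obtain ⟨x, hx⟩ := R.surj z
  exact ⟨x, x.2, by rw [R.p_coe, hx]⟩

theorem p_inv {x : K} (h : R.v x = 1) : x⁻¹ ∈ R.O ∧ R.p x⁻¹ = (R.p x)⁻¹ := by
  have hx0 : x ≠ 0 := by rintro rfl; simp at h
  have hi : x⁻¹ ∈ R.O := R.mem_iff.2 (by rw [map_inv₀, h, inv_one])
  refine ⟨hi, ?_⟩
  have := R.p_mul (R.mem_iff.2 h.le) hi
  rw [mul_inv_cancel₀ hx0, R.p_one] at this
  exact (eq_inv_of_mul_eq_one_right this.symm)

/-! ### polynomials -/

theorem coeff_pP (f : K[X]) (n : ℕ) : (R.pP f).coeff n = R.p (f.coeff n) := by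
  classical
  unfold pP
  rw [Polynomial.sum, finsetSum_coeff]
  simp only [coeff_monomial]
  rw [Finset.sum_ite_eq']
  split_ifs with h
  · rfl
  · rw [notMem_support_iff.1 h, R.p_zero]

theorem pP_map (f : R.O[X]) : R.pP (f.map R.O.subtype) = f.map R.red := by
  ext n
  rw [coeff_pP, coeff_map, coeff_map]
  exact R.p_coe _

theorem pInt_map (f : R.O[X]) : PInt R.O (f.map R.O.subtype) := fun n => by
  rw [coeff_map]; exact (f.coeff n).2

theorem exists_map {f : K[X]} (h : PInt R.O f) : ∃ g : R.O[X], g.map R.O.subtype = f := by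
  rw [← mem_lifts, lifts_iff_coeff_lifts]
  intro n
  exact ⟨⟨_, h n⟩, rfl⟩

variable {R}

theorem _root_.Crest.Agent.X262.Bub96.PInt.mul {f g : K[X]} (hf : PInt R.O f)
    (hg : PInt R.O g) : PInt R.O (f * g) ∧ R.pP (f * g) = R.pP f * R.pP g := by
  obtain ⟨f, rfl⟩ := R.exists_map hf
  obtain ⟨g, rfl⟩ := R.exists_map hg
  rw [← Polynomial.map_mul, pP_map, pP_map, pP_map]
  exact ⟨R.pInt_map _, Polynomial.map_mul _⟩

theorem _root_.Crest.Agent.X262.Bub96.PInt.add {f g : K[X]} (hf : PInt R.O f)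
    (hg : PInt R.O g) : PInt R.O (f + g) ∧ R.pP (f + g) = R.pP f + R.pP g := by
  obtain ⟨f, rfl⟩ := R.exists_map hf
  obtain ⟨g, rfl⟩ := R.exists_map hg
  rw [← Polynomial.map_add, pP_map, pP_map, pP_map]
  exact ⟨R.pInt_map _, Polynomial.map_add _⟩

theorem _root_.Crest.Agent.X262.Bub96.PInt.comp {f g : K[X]} (hf : PInt R.O f)
    (hg : PInt R.O g) : PInt R.O (f.comp g) ∧ R.pP (f.comp g) = (R.pP f).comp (R.pP g) := by
  obtain ⟨f, rfl⟩ := R.exists_map hf
  obtain ⟨g, rfl⟩ := R.exists_map hg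
  rw [← Polynomial.map_comp, pP_map, pP_map, pP_map]
  exact ⟨R.pInt_map _, Polynomial.map_comp _ _ _⟩

theorem _root_.Crest.Agent.X262.Bub96.PInt.eval {f : K[X]} (hf : PInt R.O f) {x : K}
    (hx : x ∈ R.O) : f.eval x ∈ R.O ∧ R.p (f.eval x) = (R.pP f).eval (R.p x) := by
  obtain ⟨f, rfl⟩ := R.exists_map hf
  have e : (f.map R.O.subtype).eval x = ((f.eval ⟨x, hx⟩ : R.O) : K) := by
    have := Polynomial.eval_map_apply (p := f) R.O.subtype ⟨x, hx⟩
    simpa using this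
  rw [e, pP_map, R.p_coe, R.p_of_mem hx, Polynomial.eval_map_apply]
  exact ⟨(f.eval ⟨x, hx⟩).2, rfl⟩

theorem pInt_C {x : K} (hx : x ∈ R.O) : PInt R.O (C x) ∧ R.pP (C x) = C (R.p x) := by
  have : (C x : K[X]) = (C (⟨x, hx⟩ : R.O)).map R.O.subtype := by simp
  rw [this, pP_map, R.p_of_mem hx]
  exact ⟨R.pInt_map _, by simp⟩

theorem pInt_X : PInt R.O (X : K[X]) ∧ R.pP (X : K[X]) = X := by
  have : (X : K[X]) = (X : R.O[X]).map R.O.subtype := by simp
  rw [this, pP_map]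
  exact ⟨R.pInt_map _, by simp⟩

theorem pInt_aff {x ρ : K} (hx : x ∈ R.O) (hρ : ρ ∈ R.O) :
    PInt R.O (C x + C ρ * X) ∧ R.pP (C x + C ρ * X) = C (R.p x) + C (R.p ρ) * X := by
  obtain ⟨h1, e1⟩ := (pInt_C hρ).1.mul (pInt_X (R := R)).1
  obtain ⟨h2, e2⟩ := (pInt_C hx).1.add h1
  exact ⟨h2, by rw [e2, e1, (pInt_C hx).2, (pInt_C hρ).2, pInt_X.2]⟩

theorem pInt_sum {ι : Type*} (s : Finset ι) (f : ι → K[X]) (h : ∀ i ∈ s, PInt R.O (f i)) :
    PInt R.O (∑ i ∈ s, f i) ∧ R.pP (∑ i ∈ s, f i) = ∑ i ∈ s, R.pP (f i) := by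
  classical
  induction s using Finset.induction_on with
  | empty =>
    simp only [Finset.sum_empty]
    have := pInt_C (R := R) R.O.zero_mem
    rw [R.p_zero, C_0, C_0] at this
    exact this
  | insert a s ha ih =>
    obtain ⟨h1, e1⟩ := ih fun i hi => h i (Finset.mem_insert_of_mem hi)
    obtain ⟨h2, e2⟩ := (h a (Finset.mem_insert_self _ _)).add h1
    rw [Finset.sum_insert ha, Finset.sum_insert ha]
    exact ⟨h2, by rw [e2, e1]⟩

variable (R)

/-- Gauss norm. -/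
noncomputable def gn (f : K[X]) : R.O.ValueGroup := f.support.sup fun n => R.v (f.coeff n)

theorem le_gn (f : K[X]) (n : ℕ) : R.v (f.coeff n) ≤ R.gn f := by
  by_cases h : n ∈ f.support
  · exact Finset.le_sup (f := fun n => R.v (f.coeff n)) h
  · rw [notMem_support_iff.1 h, map_zero]; exact zero_le

theorem gn_le_iff {f : K[X]} {c : R.O.ValueGroup} : R.gn f ≤ c ↔ ∀ n, R.v (f.coeff n) ≤ c :=
  ⟨fun h n => (R.le_gn f n).trans h, fun h => Finset.sup_le fun n _ => h n⟩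

theorem gn_le_one_iff {f : K[X]} : R.gn f ≤ 1 ↔ PInt R.O f := by
  rw [gn_le_iff]; exact forall_congr' fun n => R.mem_iff.symm

theorem gn_lt_one {f : K[X]} (hf : PInt R.O f) (h : R.pP f = 0) : R.gn f < 1 := by
  unfold gn
  rw [Finset.sup_lt_iff (by rw [bot_eq_zero]; exact zero_lt_one)]
  intro n _
  rw [← R.p_eq_zero_iff (hf n), ← coeff_pP, h, coeff_zero]

theorem gn_eq_zero {f : K[X]} (h : R.gn f = 0) : f = 0 := by
  ext n
  have := R.le_gn f n
  rw [h, le_zero_iff, map_eq_zero] at this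
  rw [this, coeff_zero]

theorem gn_C_mul (c : K) (f : K[X]) : R.gn (C c * f) = R.v c * R.gn f := by
  have key : ∀ (c : K) (f : K[X]), R.gn (C c * f) ≤ R.v c * R.gn f := fun c f =>
    R.gn_le_iff.2 fun n => by
      rw [coeff_C_mul, map_mul]; exact mul_le_mul_right (R.le_gn f n) _
  refine le_antisymm (key c f) ?_
  by_cases hc : c = 0
  · rw [hc, map_zero, zero_mul]; exact zero_le
  · have h := key c⁻¹ (C c * f)
    rw [← mul_assoc, ← C_mul, inv_mul_cancel₀ hc, C_1, one_mul, map_inv₀] at h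
    have hv : R.v c ≠ 0 := by simpa using hc
    calc R.v c * R.gn f ≤ R.v c * ((R.v c)⁻¹ * R.gn (C c * f)) := mul_le_mul_right h _
      _ = _ := by rw [← mul_assoc, mul_inv_cancel₀ hv, one_mul]

/-- scaling to norm one. -/
theorem exists_scale {γ : R.O.ValueGroup} (h : γ ≠ 0) : ∃ c : K, c ≠ 0 ∧ R.v c * γ = 1 := by
  obtain ⟨c, hc⟩ := R.O.valuation_surjective γ⁻¹
  refine ⟨c, ?_, by rw [show R.v c = γ⁻¹ from hc, inv_mul_cancel₀ h]⟩
  rintro rfl
  rw [map_zero] at hc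
  exact inv_ne_zero h hc.symm

variable {R}

/-- Gauss lemma: division by a primitive polynomial. -/
theorem pInt_of_mul {A Q : K[X]} (hA : PInt R.O A) (hA0 : R.pP A ≠ 0) (h : PInt R.O (A * Q)) :
    PInt R.O Q := by
  by_cases hQ : Q = 0
  · rw [hQ]; intro n; rw [coeff_zero]; exact R.O.zero_mem
  obtain ⟨c, hc0, hc⟩ := R.exists_scale (γ := R.gn Q) fun h => hQ (R.gn_eq_zero h)
  have h1 : R.gn (C c * Q) = 1 := by rw [gn_C_mul, hc]
  have hI : PInt R.O (C c * Q) := R.gn_le_one_iff.1 h1.le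
  have hne : R.pP (C c * Q) ≠ 0 := fun h0 => absurd (R.gn_lt_one hI h0) (by rw [h1]; simp)
  obtain ⟨hI2, e2⟩ := hA.mul hI
  have hne2 : R.pP (A * (C c * Q)) ≠ 0 := by rw [e2]; exact mul_ne_zero hA0 hne
  have hge : 1 ≤ R.gn (A * (C c * Q)) := by
    by_contra hlt
    apply hne2
    ext n
    rw [coeff_pP, coeff_zero]
    exact R.p_eq_zero_of_lt ((R.le_gn _ n).trans_lt (not_le.1 hlt))
  rw [show A * (C c * Q) = C c * (A * Q) by ring, gn_C_mul] at hge
  have hc1 : 1 ≤ R.v c := hge.trans (by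
    calc R.v c * R.gn (A * Q) ≤ R.v c * 1 := mul_le_mul_right (R.gn_le_one_iff.2 h) _
      _ = R.v c := mul_one _)
  rw [← R.gn_le_one_iff]
  calc R.gn Q = 1 * R.gn Q := (one_mul _).symm
    _ ≤ R.v c * R.gn Q := mul_le_mul_left hc1 _
    _ = 1 := hc

/-- roots of the reduction lift. -/
theorem exists_root [IsAlgClosed K] {P : K[X]} (hP : PInt R.O P) (h0 : R.pP P ≠ 0) {z : k}
    (hz : (R.pP P).IsRoot z) : ∃ y ∈ R.O, R.p y = z ∧ P.eval y = 0 := by
  induction hn : P.natDegree using Nat.strong_induction_on generalizing P with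
  | _ n ih =>
  have hP0 : P ≠ 0 := by
    rintro rfl
    apply h0; ext n; rw [coeff_pP, coeff_zero, R.p_zero, coeff_zero]
  by_cases hd : P.degree = 0
  · exfalso
    have e : P = C (P.coeff 0) := eq_C_of_degree_eq_zero hd
    have := (pInt_C (R := R) (hP 0)).2
    rw [← e] at this
    rw [this] at hz h0
    apply h0
    have : R.p (P.coeff 0) = 0 := by simpa using hz
    rw [this, C_0]
  obtain ⟨r, hr⟩ := IsAlgClosed.exists_root P hd
  obtain ⟨Q, hQ⟩ := dvd_iff_isRoot.2 hr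
  have hQ0 : Q ≠ 0 := by rintro rfl; exact hP0 (by rw [hQ, mul_zero])
  have hdeg : Q.natDegree < n := by
    rw [← hn, hQ, natDegree_mul (X_sub_C_ne_zero r) hQ0, natDegree_X_sub_C]; omega
  by_cases hrO : r ∈ R.O
  · obtain ⟨hA, eA⟩ := pInt_aff (R := R) (R.O.neg_mem _ hrO) R.O.one_mem
    have eq1 : (C (-r) + C 1 * X : K[X]) = X - C r := by simp; ring
    rw [eq1] at hA eA
    rw [R.p_one, R.p_neg hrO] at eA
    have eA' : R.pP (X - C r) = X - C (R.p r) := by rw [eA]; simp; ring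
    have hQI : PInt R.O Q := pInt_of_mul hA (by rw [eA']; exact X_sub_C_ne_zero _) (hQ ▸ hP)
    have e2 := (hA.mul hQI).2
    rw [← hQ, eA'] at e2
    by_cases hzr : R.p r = z
    · exact ⟨r, hrO, hzr, hr⟩
    · have hz' : (R.pP Q).IsRoot z := by
        rw [e2, IsRoot, eval_mul] at hz
        rcases mul_eq_zero.1 hz with h | h
        · rw [eval_sub, eval_X, eval_C, sub_eq_zero] at h
          exact absurd h.symm hzr
        · exact h
      obtain ⟨y, hy, hyz, hy0⟩ := ih _ hdeg hQI (fun h => h0 (by rw [e2, h, mul_zero])) hz' rfl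
      exact ⟨y, hy, hyz, by rw [hQ, eval_mul, hy0, mul_zero]⟩
  · have hr0 : r ≠ 0 := by rintro rfl; exact hrO R.O.zero_mem
    have hlt : R.v (-r⁻¹) < 1 := by
      rw [Valuation.map_neg, map_inv₀]
      exact inv_lt_one_of_one_lt₀ (not_le.1 fun h => hrO (R.mem_iff.2 h))
    obtain ⟨hA, eA⟩ := pInt_aff (R := R) R.O.one_mem (R.mem_of_lt hlt)
    rw [R.p_one, R.p_eq_zero_of_lt hlt, C_0, zero_mul, add_zero, C_1 (R := k)] at eA
    have hfac : P = (C 1 + C (-r⁻¹) * X) * (C (-r) * Q) := by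
      rw [hQ, ← mul_assoc]
      congr 1
      rw [add_mul, ← C_mul, mul_right_comm, ← C_mul]
      simp [hr0]; ring
    have hQI : PInt R.O (C (-r) * Q) :=
      pInt_of_mul hA (by rw [eA]; exact one_ne_zero) (hfac ▸ hP)
    have e2 := (hA.mul hQI).2
    rw [← hfac, eA, one_mul] at e2
    have hdeg' : (C (-r) * Q).natDegree < n := (natDegree_C_mul_le _ _).trans_lt hdeg
    obtain ⟨y, hy, hyz, hy0⟩ := ih _ hdeg' hQI (e2 ▸ h0) (e2 ▸ hz) rfl
    exact ⟨y, hy, hyz, by rw [hfac, eval_mul, hy0, mul_zero]⟩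

/-- value on an annulus: the term of degree `M` dominates. -/
theorem annulus {Q : K[X]} {M : ℕ} {w : K} (hw : 1 < R.v w) (hlo : ∀ l ≤ M, Q.coeff l ∈ R.O)
    (hhi : ∀ l, M < l → R.v (Q.coeff l) * R.v w ^ (l - M) < 1) :
    (w ^ M)⁻¹ * Q.eval w ∈ R.O ∧ R.p ((w ^ M)⁻¹ * Q.eval w) = R.p (Q.coeff M) := by
  classical
  have hw0 : w ≠ 0 := by rintro rfl; simp at hw
  apply R.p_congr (hlo M le_rfl)
  have e : (w ^ M)⁻¹ * Q.eval w - Q.coeff M =
      ∑ l ∈ (Finset.range (Q.natDegree + M + 1)).erase M, (w ^ M)⁻¹ * (Q.coeff l * w ^ l) := by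
    rw [eval_eq_sum_range' (n := Q.natDegree + M + 1) (by omega), Finset.mul_sum,
      ← Finset.add_sum_erase _ _ (Finset.mem_range.2 (by omega : M < Q.natDegree + M + 1))]
    field_simp
    ring
  rw [e]
  apply Valuation.map_sum_lt _ one_ne_zero
  intro l hl
  rcases lt_or_gt_of_ne (Finset.ne_of_mem_erase hl) with h | h
  · obtain ⟨t, rfl⟩ := Nat.exists_eq_add_of_lt h
    have : (w ^ (l + t + 1))⁻¹ * (Q.coeff l * w ^ l) = Q.coeff l * (w⁻¹) ^ (t + 1) := by
      rw [inv_pow]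
      field_simp
      ring
    rw [this, map_mul, map_pow, map_inv₀]
    calc R.v (Q.coeff l) * (R.v w)⁻¹ ^ (t + 1) ≤ 1 * (R.v w)⁻¹ ^ (t + 1) :=
          mul_le_mul_left (R.mem_iff.1 (hlo l h.le)) _
      _ < 1 := by
          rw [one_mul]
          exact pow_lt_one₀ zero_le (inv_lt_one_of_one_lt₀ hw) (by omega)
  · obtain ⟨t, rfl⟩ := Nat.exists_eq_add_of_lt h
    have : (w ^ M)⁻¹ * (Q.coeff (M + t + 1) * w ^ (M + t + 1)) =
        Q.coeff (M + t + 1) * w ^ (M + t + 1 - M) := by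
      rw [show M + t + 1 - M = t + 1 by omega]
      field_simp
      ring
    rw [this, map_mul, map_pow]
    exact hhi _ h

end Rd

end Crest.Agent.X262.Bub96
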